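import Vale.Agent.P128.Key.Removable
import Vale.Agent.P128.Spec2

/-!
# P128 Part II: removability without assuming a connected complement
-/

open MeasureTheory Set Metric Filter
open scoped ENNReal Topology Real

noncomputable section

namespace Vale.Agent.P128

open Removable in
/-- Removability for every reduced global minimiser. `hT` is `TestSpec` with `IsGM` in place of
`OpenCase`. -/
theorem removable_gen (hR : GenReplaceSpec)
    (hT : ∀ K u, IsGM K u → ∀ φ : ℂ → ℝ, LocallyLipschitzOn Kᶜ φ → HasCompactSupport φ →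
      dirichlet K φ univ < ⊤ →
        IntegrableOn (gradInner u φ) Kᶜ ∧ ∫ z in Kᶜ, gradInner u φ z = 0) :
    ∀ K u, IsGM K u → ∀ (p : ℂ) (ρ : ℝ), 0 < ρ → ∀ X Y : ℂ → ℂ,
      ContDiffOn ℝ ((⊤ : ℕ∞) : WithTop ℕ∞) X (ball p ρ) →
      ContDiffOn ℝ ((⊤ : ℕ∞) : WithTop ℕ∞) Y (ball p ρ) →
      (∀ z ∈ ball p ρ, (fderiv ℝ X z 1).re + (fderiv ℝ X z Complex.I).im = 0) →
      (∀ z ∈ ball p ρ, (fderiv ℝ Y z 1).re + (fderiv ℝ Y z Complex.I).im = 0) →
      (∀ z ∈ ball p ρ, (X z).re * (Y z).im - (X z).im * (Y z).re ≠ 0) →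
      IsFluxFree K X p ρ → IsFluxFree K Y p ρ → K ∩ ball p ρ = ∅ := by
  intro K u h p ρ _ X Y hX hY dX dY hind tX tY
  exact inter_ball_eq_empty h
    (fun S L v a b c d e hsep => hR K u h S L v a b c d e ⟨0, fun R _ => hsep 0 R⟩) (hT K u h)
    (hX.of_le (by exact_mod_cast le_top)) (hY.of_le (by exact_mod_cast le_top)) dX dY hind tX tY

end Vale.Agent.P128
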