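import Vale.Agent.P128.Defs

/-!
# P128 piece E1: calculus on the plane (cut-offs, partial derivatives, Green identity)
-/

open MeasureTheory Set Metric Filter Function InnerProductSpace Laplacian
open scoped Topology Real RealInnerProductSpace ContDiff Manifold

noncomputable section

namespace Vale.Agent.P128.KeyAux

/-- Partial derivative in the direction `e`. -/
def pd (e : ℂ) (f : ℂ → ℝ) (z : ℂ) : ℝ := fderiv ℝ f z e

/-- The Laplacian by partial derivatives. -/
def lap (f : ℂ → ℝ) (z : ℂ) : ℝ :=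
  pd 1 (pd 1 f) z + pd Complex.I (pd Complex.I f) z

/-- The gradient as a complex number. -/
def grad (f : ℂ → ℝ) (z : ℂ) : ℂ := ⟨pd 1 f z, pd Complex.I f z⟩

theorem inner_grad (f : ℂ → ℝ) (z v : ℂ) : fderiv ℝ f z v = ⟪grad f z, v⟫ := by
  have hv : v = v.re • (1 : ℂ) + v.im • Complex.I := by apply Complex.ext <;> simp
  conv_lhs => rw [hv, map_add, map_smul, map_smul]
  simp [Complex.inner, grad, pd]

theorem gradSq_eq (f : ℂ → ℝ) (z : ℂ) : gradSq f z = ‖grad f z‖ ^ 2 := by
  rw [← Complex.normSq_eq_norm_sq]; simp [gradSq, grad, pd, Complex.normSq_apply]; ring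

theorem gradInner_eq (f g : ℂ → ℝ) (z : ℂ) : gradInner f g z = ⟪grad f z, grad g z⟫ := by
  simp [gradInner, grad, pd, Complex.inner]; ring

theorem grad_congr {f g : ℂ → ℝ} {z : ℂ} (h : f =ᶠ[𝓝 z] g) : grad f z = grad g z := by
  simp [grad, pd, h.fderiv_eq]

theorem pd_congr {f g : ℂ → ℝ} {z e : ℂ} (h : f =ᶠ[𝓝 z] g) : pd e f z = pd e g z := by
  simp [pd, h.fderiv_eq]

theorem contDiffOn_pd {f : ℂ → ℝ} {U : Set ℂ} (hU : IsOpen U) (hf : ContDiffOn ℝ ∞ f U) (e : ℂ) :
    ContDiffOn ℝ ∞ (pd e f) U :=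
  (hf.fderiv_of_isOpen hU (by norm_num)).clm_apply contDiffOn_const

theorem contDiff_pd {f : ℂ → ℝ} (hf : ContDiff ℝ ∞ f) (e : ℂ) : ContDiff ℝ ∞ (pd e f) :=
  (hf.fderiv_right (by norm_num)).clm_apply contDiff_const

theorem lap_eq_laplacian {f : ℂ → ℝ} {z : ℂ} (hf : ContDiffAt ℝ 2 f z) : Δ f z = lap f z := by
  rw [laplacian_eq_iteratedFDeriv_complexPlane]
  simp only [iteratedFDeriv_two_apply, Matrix.cons_val_zero, Matrix.cons_val_one,
    Matrix.cons_val_fin_one, lap, pd]
  have hd : DifferentiableAt ℝ (fderiv ℝ f) z := (hf.fderiv_right (m := 1) le_rfl).differentiableAt one_ne_zero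
  have e : ∀ v : ℂ, fderiv ℝ (fun y => fderiv ℝ f y v) z v = fderiv ℝ (fderiv ℝ f) z v v := fun v => by
    rw [fderiv_clm_apply hd (differentiableAt_const v)]; simp
  show _ = fderiv ℝ (fun y => fderiv ℝ f y 1) z 1
    + fderiv ℝ (fun y => fderiv ℝ f y Complex.I) z Complex.I
  rw [e, e]

theorem lap_congr {f g : ℂ → ℝ} {z : ℂ} (h : f =ᶠ[𝓝 z] g) : lap f z = lap g z := by
  have h1 : pd 1 f =ᶠ[𝓝 z] pd 1 g := h.eventuallyEq_nhds.mono fun w hw => pd_congr hw
  have h2 : pd Complex.I f =ᶠ[𝓝 z] pd Complex.I g := h.eventuallyEq_nhds.mono fun w hw => pd_congr hw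
  simp [lap, pd_congr h1, pd_congr h2]

/-- Cut-off equal to one near a compact set. -/
theorem exists_cutoff {C U : Set ℂ} (hC : IsCompact C) (hU : IsOpen U) (hCU : C ⊆ U) :
    ∃ χ : ℂ → ℝ, ∃ V : Set ℂ, ContDiff ℝ ∞ χ ∧ HasCompactSupport χ ∧ tsupport χ ⊆ U ∧
      IsOpen V ∧ C ⊆ V ∧ EqOn χ 1 V ∧ ∀ z, χ z ∈ Icc (0 : ℝ) 1 := by
  obtain ⟨N, hN, hCN, hNU⟩ := exists_compact_between hC hU hCU
  obtain ⟨M, hM, hNM, hMU⟩ := exists_compact_between hN hU hNU
  obtain ⟨f, hf0, hf1, hf⟩ := exists_contMDiffMap_zero_one_of_isClosed (n := (⊤ : ℕ∞)) 𝓘(ℝ, ℂ)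
    (isOpen_interior (s := M)).isClosed_compl hN.isClosed
    (disjoint_left.2 fun z hz hz' => hz (hNM hz'))
  have hsub : tsupport (f : ℂ → ℝ) ⊆ M := by
    refine closure_minimal (fun z hz => ?_) hM.isClosed
    by_contra hzM
    exact hz (hf0 fun h => hzM (interior_subset h))
  exact ⟨f, interior N, contMDiff_iff_contDiff.1 f.contMDiff, hM.of_isClosed_subset isClosed_closure
    hsub, hsub.trans hMU, isOpen_interior, hCN, hf1.mono interior_subset, hf⟩

/-- A cut-off times a function smooth on an open set is smooth. -/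
theorem contDiff_mul_cutoff {U : Set ℂ} {φ f : ℂ → ℝ} (hU : IsOpen U)
    (hφ : ContDiff ℝ ∞ φ) (hf : ContDiffOn ℝ ∞ f U) (hs : tsupport φ ⊆ U) :
    ContDiff ℝ ∞ (fun z => φ z * f z) := by
  refine contDiff_iff_contDiffAt.2 fun z => ?_
  by_cases hz : z ∈ U
  · exact hφ.contDiffAt.mul (hf.contDiffAt (hU.mem_nhds hz))
  · have h0 : (fun w => φ w * f w) =ᶠ[𝓝 z] fun _ => 0 :=
      (notMem_tsupport_iff_eventuallyEq.1 fun h => hz (hs h)).mono fun w hw => by simp [hw]
    exact contDiffAt_const.congr_of_eventuallyEq h0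

theorem integral_pd_eq_zero {g : ℂ → ℝ} (hg : ContDiff ℝ ∞ g) (hc : HasCompactSupport g)
    (e : ℂ) : ∫ z, pd e g z = 0 := by
  have h := integral_mul_fderiv_eq_neg_fderiv_mul_of_integrable (μ := (volume : Measure ℂ))
    (f := fun _ : ℂ => (1 : ℝ)) (g := g) (v := e) (by simp)
    (by
      simp only [one_mul]
      exact (contDiff_pd hg e).continuous.integrable_of_hasCompactSupport (hc.fderiv_apply ℝ e))
    (by simpa using hg.continuous.integrable_of_hasCompactSupport hc)
    (fun x _ => differentiableAt_const _) (fun x _ => (hg.differentiable (by simp)).differentiableAt)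
  simpa [pd] using h

/-- Green's identity for a test function supported in the domain. -/
theorem green {U : Set ℂ} {w φ : ℂ → ℝ} (hU : IsOpen U) (hw : ContDiffOn ℝ ∞ w U)
    (hφ : ContDiff ℝ ∞ φ) (hc : HasCompactSupport φ) (hs : tsupport φ ⊆ U) :
    ∫ z, gradInner w φ z = -∫ z, φ z * lap w z := by
  have hsm : ∀ e : ℂ, ContDiff ℝ ∞ (fun z => φ z * pd e w z) := fun e =>
    contDiff_mul_cutoff hU hφ (contDiffOn_pd hU hw e) hs
  have hsc : ∀ e : ℂ, HasCompactSupport (fun z => φ z * pd e w z) := fun e => hc.mul_right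
  have key : ∀ e z, pd e (fun y => φ y * pd e w y) z =
      pd e w z * pd e φ z + φ z * pd e (pd e w) z := by
    intro e z
    by_cases hz : z ∈ U
    · show fderiv ℝ (fun y => φ y * pd e w y) z e = _
      rw [fderiv_fun_mul (hφ.differentiable (by simp)).differentiableAt
        (((contDiffOn_pd hU hw e).contDiffAt (hU.mem_nhds hz)).differentiableAt (by simp))]
      simp [pd]; ring
    · have h0 := notMem_tsupport_iff_eventuallyEq.1 fun h => hz (hs h)
      have h1 : (fun y => φ y * pd e w y) =ᶠ[𝓝 z] fun _ => (0 : ℝ) :=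
        h0.mono fun y hy => by simp [hy]
      rw [pd_congr h1]
      simp [pd, h0.fderiv_eq, h0.eq_of_nhds]
  have hint : ∀ e : ℂ, Integrable (fun z => pd e (fun y => φ y * pd e w y) z) := fun e =>
    (contDiff_pd (hsm e) e).continuous.integrable_of_hasCompactSupport
      ((hsc e).fderiv_apply ℝ e)
  have h0 : ∫ z, pd 1 (fun y => φ y * pd 1 w y) z
      + pd Complex.I (fun y => φ y * pd Complex.I w y) z = 0 := by
    rw [integral_add (hint 1) (hint Complex.I), integral_pd_eq_zero (hsm 1) (hsc 1),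
      integral_pd_eq_zero (hsm Complex.I) (hsc Complex.I), add_zero]
  have heq : ∀ z, pd 1 (fun y => φ y * pd 1 w y) z
      + pd Complex.I (fun y => φ y * pd Complex.I w y) z = gradInner w φ z + φ z * lap w z := by
    intro z
    rw [key, key]; simp only [gradInner, lap, pd]; ring
  simp only [heq] at h0
  have hi : Integrable (fun z => φ z * lap w z) := by
    refine (contDiff_mul_cutoff hU hφ ?_ hs).continuous.integrable_of_hasCompactSupport hc.mul_right
    exact (contDiffOn_pd hU (contDiffOn_pd hU hw 1) 1).add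
      (contDiffOn_pd hU (contDiffOn_pd hU hw _) _)
  have hg : Integrable (fun z => gradInner w φ z) := by
    have := ((hint 1).add (hint Complex.I)).sub hi
    refine this.congr (Eventually.of_forall fun z => ?_)
    have := heq z
    simp only [Pi.sub_apply, Pi.add_apply]; linarith
  rw [integral_add hg hi] at h0
  linarith

end Vale.Agent.P128.KeyAux
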