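import Vale.Agent.P128.Spec
import Vale.Agent.P128.Basic

/-!
# P128 piece E: interface between the translation identity (E1) and removability (E2)
-/

open MeasureTheory Set Metric Filter
open scoped ENNReal Topology Real RealInnerProductSpace

noncomputable section

namespace Vale.Agent.P128

/-- Orthogonality of the vector field `X` to gradients of test functions jumping on `K`. -/
def IsFluxFree (K : Set ℂ) (X : ℂ → ℂ) (p : ℂ) (ρ : ℝ) : Prop :=
  ∀ φ : ℂ → ℝ, LocallyLipschitzOn Kᶜ φ → HasCompactSupport φ → tsupport φ ⊆ ball p ρ →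
    dirichlet K φ univ < ⊤ → ∫ z in Kᶜ, fderiv ℝ φ z (X z) = 0

/-- E2: two smooth independent flux-free fields make the crack removable. -/
def RemovableSpec : Prop :=
  ∀ K u, OpenCase K u → ∀ (p : ℂ) (ρ : ℝ), 0 < ρ → ∀ X Y : ℂ → ℂ,
    ContDiffOn ℝ ((⊤ : ℕ∞) : WithTop ℕ∞) X (ball p ρ) →
    ContDiffOn ℝ ((⊤ : ℕ∞) : WithTop ℕ∞) Y (ball p ρ) →
    (∀ z ∈ ball p ρ, (fderiv ℝ X z 1).re + (fderiv ℝ X z Complex.I).im = 0) →
    (∀ z ∈ ball p ρ, (fderiv ℝ Y z 1).re + (fderiv ℝ Y z Complex.I).im = 0) →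
    (∀ z ∈ ball p ρ, (X z).re * (Y z).im - (X z).im * (Y z).re ≠ 0) →
    IsFluxFree K X p ρ → IsFluxFree K Y p ρ → K ∩ ball p ρ = ∅

end Vale.Agent.P128
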