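import Vale.Agent.P128.Key.Calc

/-!
# P128 piece E1: the logarithmic potential of a test function
-/

open MeasureTheory Set Metric Filter Function ContinuousLinearMap
open scoped Topology Real RealInnerProductSpace ContDiff Convolution

noncomputable section

namespace Vale.Agent.P128.KeyAux

/-- The logarithmic kernel. -/
def logK (y : ℂ) : ℝ := Real.log ‖y‖

/-- Logarithmic potential: solves `lap (pot f) = f`. -/
def pot (f : ℂ → ℝ) (x : ℂ) : ℝ := (2 * π)⁻¹ * (logK ⋆[mul ℝ ℝ, volume] f) x

theorem abs_log_le {r : ℝ} (hr : 0 ≤ r) : |Real.log r| ≤ r⁻¹ + r := by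
  rcases hr.eq_or_lt with h | h
  · simp [← h]
  · have h1 := Real.log_le_sub_one_of_pos h
    have h2 := Real.log_le_sub_one_of_pos (inv_pos.2 h)
    rw [Real.log_inv] at h2
    rw [abs_le]; constructor <;> linarith [inv_pos.2 h]

theorem locallyIntegrable_logK : LocallyIntegrable logK volume := by
  refine (locallyIntegrable_iff).2 fun k hk => ?_
  obtain ⟨R, hR⟩ := hk.isBounded.subset_ball 0
  refine IntegrableOn.mono_set ?_ hR
  have h1 : IntegrableOn (fun x : ℂ => ‖x‖⁻¹ + ‖x‖) (ball 0 R) volume := by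
    rw [integrableOn_fun_norm_addHaar volume (f := fun y : ℝ => y⁻¹ + y)]
    refine IntegrableOn.congr_fun (f := fun y : ℝ => 1 + y * y) ?_ ?_ measurableSet_Ioo
    · exact ((by fun_prop : Continuous fun y : ℝ => 1 + y * y).integrableOn_Icc (a := 0) (b := R)).mono_set
        Ioo_subset_Icc_self
    · intro y hy
      simp only [Complex.finrank_real_complex, smul_eq_mul]
      norm_num
      field_simp [hy.1.ne']
  refine h1.mono' (Real.measurable_log.comp measurable_norm).aestronglyMeasurable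
    (Eventually.of_forall fun x => ?_)
  exact abs_log_le (norm_nonneg x)

theorem contDiff_pot {f : ℂ → ℝ} (hf : ContDiff ℝ ∞ f) (hc : HasCompactSupport f) :
    ContDiff ℝ ∞ (pot f) :=
  (contDiff_const (c := (2 * π)⁻¹)).mul
    (hc.contDiff_convolution_right (mul ℝ ℝ) locallyIntegrable_logK hf)

theorem pd_pot {f : ℂ → ℝ} (hf : ContDiff ℝ ∞ f) (hc : HasCompactSupport f) (e x : ℂ) :
    pd e (pot f) x = pot (pd e f) x := by
  have h1 : ContDiff ℝ 1 f := hf.of_le (by simp)
  have h := (hc.hasFDerivAt_convolution_right (mul ℝ ℝ) locallyIntegrable_logK h1 x).const_mul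
    ((2 * π)⁻¹)
  have h' : HasFDerivAt (pot f) ((2 * π)⁻¹ •
      (logK ⋆[(mul ℝ ℝ).precompR ℂ, volume] fderiv ℝ f) x) x := h
  simp only [pd, h'.fderiv, ContinuousLinearMap.smul_apply, smul_eq_mul, pot]
  rw [convolution_precompR_apply _ locallyIntegrable_logK (hc.fderiv ℝ)
    (h1.continuous_fderiv one_ne_zero)]
  rfl

/-- The regularised kernel. -/
def logR (r : ℝ) (y : ℂ) : ℝ := 2⁻¹ * Real.log (‖y‖ ^ 2 + r ^ 2)

theorem hasFDerivAt_logR {r : ℝ} (hr : r ≠ 0) (y : ℂ) :
    HasFDerivAt (logR r) ((‖y‖ ^ 2 + r ^ 2)⁻¹ • innerSL ℝ y) y := by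
  have hpos : 0 < ‖y‖ ^ 2 + r ^ 2 := by positivity
  have := (((hasStrictFDerivAt_norm_sq y).hasFDerivAt.add_const (r ^ 2)).log hpos.ne').const_mul
    (2⁻¹ : ℝ)
  refine this.congr_fderiv ?_
  ext v
  simp
  ring

theorem contDiff_logR {r : ℝ} (hr : r ≠ 0) : ContDiff ℝ ∞ (logR r) := by
  refine contDiff_iff_contDiffAt.2 fun y => ?_
  have hpos : 0 < ‖y‖ ^ 2 + r ^ 2 := by positivity
  exact contDiffAt_const.mul (((contDiff_norm_sq ℝ).contDiffAt.add contDiffAt_const).log hpos.ne')

theorem lap_logR {r : ℝ} (hr : r ≠ 0) (y : ℂ) :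
    lap (logR r) y = 2 * r ^ 2 / (‖y‖ ^ 2 + r ^ 2) ^ 2 := by
  have hne : ∀ z : ℂ, ‖z‖ ^ 2 + r ^ 2 ≠ 0 := fun z => ne_of_gt (by positivity)
  have h1 : ∀ e : ℂ, pd e (logR r) = fun z => (‖z‖ ^ 2 + r ^ 2)⁻¹ * ⟪z, e⟫ := by
    intro e; funext z
    simp [pd, (hasFDerivAt_logR hr z).fderiv]
  have h2 : ∀ e : ℂ, pd e (pd e (logR r)) y =
      (‖y‖ ^ 2 + r ^ 2)⁻¹ * ⟪e, e⟫
        - 2 * ⟪y, e⟫ ^ 2 * ((‖y‖ ^ 2 + r ^ 2) ^ 2)⁻¹ := by
    intro e
    rw [h1]
    have ha := ((hasDerivAt_inv (hne y)).comp_hasFDerivAt y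
      ((hasStrictFDerivAt_norm_sq y).hasFDerivAt.add_const (r ^ 2)))
    have hb : HasFDerivAt (fun z : ℂ => ⟪z, e⟫) (innerSL ℝ e) y := by
      refine ((innerSL ℝ e).hasFDerivAt (x := y)).congr_of_eventuallyEq
        (Eventually.of_forall fun z => ?_)
      simp [real_inner_comm]
    show fderiv ℝ (fun z : ℂ => (‖z‖ ^ 2 + r ^ 2)⁻¹ * ⟪z, e⟫) y e = _
    have hab : HasFDerivAt (fun z : ℂ => (‖z‖ ^ 2 + r ^ 2)⁻¹ * ⟪z, e⟫) _ y := ha.mul hb
    rw [hab.fderiv]
    simp
    ring
  have h3 : ⟪y, (1 : ℂ)⟫ ^ 2 + ⟪y, Complex.I⟫ ^ 2 = ‖y‖ ^ 2 := by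
    rw [← Complex.normSq_eq_norm_sq]; simp [Complex.inner, Complex.normSq_apply]; ring
  rw [lap, h2, h2]
  have := hne y
  simp only [real_inner_self_eq_norm_sq, norm_one, Complex.norm_I]
  field_simp
  linear_combination (-2) * h3

theorem integral_profile : ∫ z : ℂ, 2 / (‖z‖ ^ 2 + 1) ^ 2 = 2 * π := by
  rw [integral_fun_norm_addHaar (volume : Measure ℂ) (fun t : ℝ => 2 / (t ^ 2 + 1) ^ 2)]
  have hI : ∫ t in Ioi (0 : ℝ), 2 * t / (t ^ 2 + 1) ^ 2 = 1 := by
    have hd : ∀ t ∈ Ici (0 : ℝ), HasDerivAt (fun t : ℝ => -(t ^ 2 + 1)⁻¹)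
        (2 * t / (t ^ 2 + 1) ^ 2) t := by
      intro t _
      have := (((hasDerivAt_pow 2 t).add_const (1 : ℝ)).inv (by positivity)).neg
      refine this.congr_deriv ?_
      simp; ring
    rw [integral_Ioi_of_hasDerivAt_of_nonneg' hd (fun t ht => ?_) (l := 0)]
    · simp
    · have := Filter.Tendsto.neg (tendsto_inv_atTop_zero.comp
        (tendsto_atTop_add_const_right _ (1 : ℝ) (tendsto_pow_atTop (α := ℝ) two_ne_zero)))
      simpa [comp_def] using this
    · have : (0 : ℝ) < t := ht
      positivity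
  have hI' : ∫ t in Ioi (0 : ℝ), t ^ (Module.finrank ℝ ℂ - 1) • (2 / (t ^ 2 + 1) ^ 2) = 1 := by
    refine Eq.trans ?_ hI
    refine setIntegral_congr_fun measurableSet_Ioi fun t _ => ?_
    simp [Complex.finrank_real_complex]; ring
  rw [hI', Complex.finrank_real_complex, measureReal_def, Complex.volume_ball]
  simp

/-- The fundamental solution identity. -/
theorem integral_logK_lap {φ : ℂ → ℝ} (hφ : ContDiff ℝ ∞ φ) (hc : HasCompactSupport φ) :
    ∫ y, logK y * lap φ y = 2 * π * φ 0 := by
  have hlapc : Continuous (lap φ) :=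
    ((contDiff_pd (contDiff_pd hφ 1) 1).add (contDiff_pd (contDiff_pd hφ _) _)).continuous
  have hlaps : HasCompactSupport (lap φ) :=
    (((hc.fderiv_apply ℝ (1 : ℂ)).fderiv_apply ℝ (1 : ℂ)).add
      ((hc.fderiv_apply ℝ Complex.I).fderiv_apply ℝ Complex.I))
  set r : ℕ → ℝ := fun n => 1 / (n + 1) with hr
  have hr0 : ∀ n, r n ≠ 0 := fun n => by simp only [hr]; positivity
  have hr1 : ∀ n, r n ^ 2 ≤ 1 := fun n => by
    simp only [hr]
    rw [div_pow, one_pow, div_le_one (by positivity)]
    nlinarith [(Nat.cast_nonneg n : (0 : ℝ) ≤ n)]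
  have hrlim : Tendsto r atTop (𝓝 0) := tendsto_one_div_add_atTop_nhds_zero_nat
  -- left hand side
  have hL : Tendsto (fun n => ∫ y, logR (r n) y * lap φ y) atTop (𝓝 (∫ y, logK y * lap φ y)) := by
    refine tendsto_integral_of_dominated_convergence
      (fun y => (|logK y| + ‖y‖ ^ 2) * |lap φ y|)
      (fun n => ((contDiff_logR (hr0 n)).continuous.mul hlapc).aestronglyMeasurable) ?_ ?_ ?_
    · simp only [add_mul]
      refine Integrable.add ?_ ?_
      · simpa [abs_mul] using (locallyIntegrable_logK.integrable_smul_right_of_hasCompactSupport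
          hlapc hlaps).norm
      · exact ((continuous_norm.pow 2).mul hlapc.abs).integrable_of_hasCompactSupport
          (hlaps.abs.mul_left)
    · intro n
      filter_upwards [Measure.ae_ne volume (0 : ℂ)] with y hy
      rw [Real.norm_eq_abs, abs_mul]
      refine mul_le_mul_of_nonneg_right ?_ (abs_nonneg _)
      have hy2 : 0 < ‖y‖ ^ 2 := by positivity
      have hle : Real.log (‖y‖ ^ 2 + r n ^ 2) ≤ ‖y‖ ^ 2 := by
        have := Real.log_le_sub_one_of_pos (show 0 < ‖y‖ ^ 2 + r n ^ 2 by positivity)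
        linarith [hr1 n]
      have hge : 2 * logK y ≤ Real.log (‖y‖ ^ 2 + r n ^ 2) := by
        have := Real.log_le_log hy2 (show ‖y‖ ^ 2 ≤ ‖y‖ ^ 2 + r n ^ 2 by nlinarith)
        simpa [Real.log_pow, logK] using this
      simp only [logR]
      rw [abs_le]
      constructor <;> nlinarith [neg_abs_le (logK y), abs_nonneg (logK y)]
    · filter_upwards [Measure.ae_ne volume (0 : ℂ)] with y hy
      have hy2 : 0 < ‖y‖ ^ 2 := by positivity
      have h := ((tendsto_const_nhds (x := ‖y‖ ^ 2)).add (hrlim.pow 2)).log (by simpa using hy2.ne')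
      have h' := (h.const_mul (2⁻¹ : ℝ)).mul_const (lap φ y)
      simpa [logR, logK, Real.log_pow] using h'
  -- right hand side
  have hR : Tendsto (fun n => ∫ y, φ y * lap (logR (r n)) y) atTop (𝓝 (2 * π * φ 0)) := by
    have hscale : ∀ n, ∫ y, φ y * lap (logR (r n)) y =
        ∫ z : ℂ, φ (r n • z) * (2 / (‖z‖ ^ 2 + 1) ^ 2) := by
      intro n
      have h := Measure.integral_comp_smul (volume : Measure ℂ)
        (fun y => φ y * lap (logR (r n)) y) (r n)
      have hp : r n ^ 2 ≠ 0 := pow_ne_zero _ (hr0 n)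
      have hr' : r n ≠ 0 := hr0 n
      simp only [Complex.finrank_real_complex, smul_eq_mul, abs_inv, abs_pow, sq_abs] at h
      have : ∫ y, φ y * lap (logR (r n)) y =
          r n ^ 2 * ∫ z : ℂ, φ (r n • z) * lap (logR (r n)) (r n • z) := by
        rw [h]; field_simp
      rw [this, ← integral_const_mul]
      refine integral_congr_ae (Eventually.of_forall fun z => ?_)
      have hz : ‖z‖ ^ 2 + 1 ≠ 0 := by positivity
      show r n ^ 2 * (φ (r n • z) * lap (logR (r n)) (r n • z)) = _
      rw [lap_logR (hr0 n), norm_smul, mul_pow, Real.norm_eq_abs, sq_abs]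
      have hrw : r n ^ 2 * ‖z‖ ^ 2 + r n ^ 2 = r n ^ 2 * (‖z‖ ^ 2 + 1) := by ring
      rw [hrw]
      field_simp
    simp_rw [hscale]
    obtain ⟨M, hM⟩ := hφ.continuous.bounded_above_of_compact_support hc
    have hint : Integrable (fun z : ℂ => 2 / (‖z‖ ^ 2 + 1) ^ 2) := by
      by_contra h
      have := integral_undef h
      rw [integral_profile] at this
      linarith [Real.pi_pos]
    have hlim := tendsto_integral_of_dominated_convergence
      (F := fun n (z : ℂ) => φ (r n • z) * (2 / (‖z‖ ^ 2 + 1) ^ 2))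
      (f := fun z => φ 0 * (2 / (‖z‖ ^ 2 + 1) ^ 2))
      (μ := (volume : Measure ℂ))
      (fun z => M * (2 / (‖z‖ ^ 2 + 1) ^ 2))
      (fun n => ((hφ.continuous.comp (continuous_const_smul _)).aestronglyMeasurable.mul
        hint.aestronglyMeasurable)) (hint.const_mul M)
      (fun n => Eventually.of_forall fun z => by
        rw [norm_mul, Real.norm_eq_abs (2 / _), abs_of_nonneg (by positivity)]
        exact mul_le_mul_of_nonneg_right (hM _) (by positivity))
      (Eventually.of_forall fun z => by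
        have hz : Tendsto (fun n => r n • z) atTop (𝓝 0) := by simpa using hrlim.smul_const z
        exact ((hφ.continuous.tendsto 0).comp hz).mul_const _)
    rwa [integral_const_mul, integral_profile, mul_comm (φ 0)] at hlim
  -- both sides agree
  have heq : ∀ n, ∫ y, logR (r n) y * lap φ y = ∫ y, φ y * lap (logR (r n)) y := by
    intro n
    obtain ⟨χ, V, hχ, hχc, -, hV, hCV, hχ1, -⟩ := exists_cutoff hc isOpen_univ (subset_univ _)
    set w : ℂ → ℝ := fun y => χ y * logR (r n) y
    have hw : ContDiff ℝ ∞ w := hχ.mul (contDiff_logR (hr0 n))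
    have e1 := green isOpen_univ hφ.contDiffOn hw hχc.mul_right (subset_univ _)
    have e2 := green isOpen_univ hw.contDiffOn hφ hc (subset_univ _)
    have e3 : ∫ y, gradInner φ w y = ∫ y, gradInner w φ y := by
      simp only [gradInner, mul_comm]
    have hweq : ∀ y ∈ tsupport φ, w =ᶠ[𝓝 y] logR (r n) := fun y hy => by
      filter_upwards [hV.mem_nhds (hCV hy)] with v hv
      simp [w, hχ1 hv]
    have f1 : ∀ y, w y * lap φ y = logR (r n) y * lap φ y := by
      intro y
      by_cases hy : y ∈ tsupport φ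
      · rw [(hweq y hy).eq_of_nhds]
      · have : lap φ y = 0 := by
          rw [lap_congr (notMem_tsupport_iff_eventuallyEq.1 hy)]
          have z0 : ∀ e, pd e (0 : ℂ → ℝ) = 0 := fun e => funext fun v => by simp [pd]
          simp only [lap, z0, Pi.zero_apply, add_zero]
        simp [this]
    have f2 : ∀ y, φ y * lap w y = φ y * lap (logR (r n)) y := by
      intro y
      by_cases hy : y ∈ tsupport φ
      · rw [lap_congr (hweq y hy)]
      · simp [image_eq_zero_of_notMem_tsupport hy]
    simp only [f1, f2] at e1 e2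
    linarith
  simp only [heq] at hL
  exact tendsto_nhds_unique hL hR

theorem lap_pot {f : ℂ → ℝ} (hf : ContDiff ℝ ∞ f) (hc : HasCompactSupport f) (x : ℂ) :
    lap (pot f) x = f x := by
  have h : ∀ e, pd e (pd e (pot f)) x = pot (pd e (pd e f)) x := by
    intro e
    have : pd e (pot f) = pot (pd e f) := funext (pd_pot hf hc e)
    rw [this, pd_pot (contDiff_pd hf e) (hc.fderiv_apply ℝ e)]
  have hs : ∀ e : ℂ, ContDiff ℝ ∞ (pd e (pd e f)) ∧ HasCompactSupport (pd e (pd e f)) := fun e =>
    ⟨contDiff_pd (contDiff_pd hf e) e, (hc.fderiv_apply ℝ e).fderiv_apply ℝ e⟩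
  have hφ : ContDiff ℝ ∞ (fun y => f (x - y)) := hf.comp (contDiff_const.sub contDiff_id)
  have hφc : HasCompactSupport (fun y => f (x - y)) := hc.comp_homeomorph (Homeomorph.subLeft x)
  have hlap : ∀ y, lap (fun y => f (x - y)) y = lap f (x - y) := by
    intro y
    have hd : ∀ (g : ℂ → ℝ), Differentiable ℝ g → ∀ e, pd e (fun y => g (x - y)) =
        fun y => -pd e g (x - y) := by
      intro g hg e; funext z
      have := (hg (x - z)).hasFDerivAt.comp z ((hasFDerivAt_id z).const_sub x)
      have h' : HasFDerivAt (fun y => g (x - y)) _ z := this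
      simp only [pd]
      rw [h'.fderiv]
      simp
    have hh : ∀ e, pd e (pd e (fun y => f (x - y))) y = pd e (pd e f) (x - y) := by
      intro e
      have hd1 := congrFun (hd (pd e f) ((contDiff_pd hf e).differentiable (by simp)) e) y
      rw [hd f (hf.differentiable (by simp)) e]
      show fderiv ℝ (fun y => -pd e f (x - y)) y e = _
      change fderiv ℝ (fun y => pd e f (x - y)) y e = _ at hd1
      rw [fderiv_fun_neg]
      simp [hd1]
    simp [lap, hh]
  have key := integral_logK_lap hφ hφc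
  simp only [hlap, sub_zero] at key
  have hi : ∀ e : ℂ, Integrable (fun y => logK y * pd e (pd e f) (x - y)) := fun e => by
    simpa using locallyIntegrable_logK.integrable_smul_right_of_hasCompactSupport
      ((hs e).1.continuous.comp (continuous_const.sub continuous_id))
      ((hs e).2.comp_homeomorph (Homeomorph.subLeft x))
  calc lap (pot f) x = pot (pd 1 (pd 1 f)) x + pot (pd Complex.I (pd Complex.I f)) x := by
        rw [lap, h, h]
    _ = (2 * π)⁻¹ * ∫ y, logK y * lap f (x - y) := by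
        simp only [pot, convolution_def, mul_apply', lap, mul_add]
        rw [integral_add (hi 1) (hi Complex.I), mul_add]
    _ = f x := by
        rw [key]; field_simp

theorem pot_eq (f : ℂ → ℝ) (x : ℂ) : pot f x = (2 * π)⁻¹ * ∫ z, f z * logK (x - z) := by
  rw [pot, convolution_def, ← integral_sub_left_eq_self _ volume x]
  simp [mul_comm]

theorem integrable_mul_of_continuousOn {f h : ℂ → ℝ} (hf : Continuous f) (hc : HasCompactSupport f)
    (hh : ContinuousOn h (tsupport f)) : Integrable (fun z => f z * h z) := by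
  refine (integrableOn_iff_integrable_of_support_subset (s := tsupport f) fun z hz => ?_).1
    ((hf.continuousOn.mul hh).integrableOn_compact hc)
  exact subset_tsupport f fun h0 => hz (by simp [h0])

theorem abs_log_sub_log_le {a b m : ℝ} (hm : 0 < m) (ha : m ≤ a) (hb : m ≤ b) :
    |Real.log a - Real.log b| ≤ |a - b| / m := by
  have ha0 := hm.trans_le ha
  have hb0 := hm.trans_le hb
  wlog h : b ≤ a generalizing a b
  · rw [abs_sub_comm, abs_sub_comm a]; exact this hb ha hb0 ha0 (le_of_not_ge h)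
  rw [abs_of_nonneg (sub_nonneg.2 (Real.log_le_log hb0 h)), abs_of_nonneg (sub_nonneg.2 h),
    ← Real.log_div ha0.ne' hb0.ne']
  refine (Real.log_le_sub_one_of_pos (div_pos ha0 hb0)).trans ?_
  rw [div_sub_one hb0.ne']
  exact div_le_div_of_nonneg_left (sub_nonneg.2 h) hm hb

theorem pot_decay {f : ℂ → ℝ} (hf : ContDiff ℝ ∞ f) (hc : HasCompactSupport f)
    (h0 : ∫ z, f z = 0) : ∃ A R : ℝ, 0 ≤ A ∧ 0 < R ∧ ∀ x : ℂ, R ≤ ‖x‖ →
      |pot f x| ≤ A / ‖x‖ ∧ ∀ e, |pd e (pot f) x| ≤ A * ‖e‖ / ‖x‖ ^ 2 := by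
  obtain ⟨ρ, hρ0, hρ⟩ := hc.isCompact.isBounded.subset_closedBall_lt 0 (0 : ℂ)
  have hfi : Integrable f := hf.continuous.integrable_of_hasCompactSupport hc
  refine ⟨(2 * π)⁻¹ * (2 * ρ * ∫ z, |f z|), 2 * ρ,
    mul_nonneg (by positivity) (mul_nonneg (by positivity) (integral_nonneg fun _ => abs_nonneg _)),
    by positivity, fun x hx => ?_⟩
  have hx0 : 0 < ‖x‖ := by linarith
  have hfar : ∀ z ∈ tsupport f, ‖z‖ ≤ ρ ∧ ‖x‖ / 2 ≤ ‖x - z‖ := by
    intro z hz
    have h1 : ‖z‖ ≤ ρ := by simpa using hρ hz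
    exact ⟨h1, by linarith [norm_sub_norm_le x z]⟩
  have hne : ∀ z ∈ tsupport f, x - z ≠ 0 := fun z hz h => by
    have := (hfar z hz).2
    rw [h, norm_zero] at this; linarith
  have est : ∀ (h : ℂ → ℝ) (B : ℝ), ContinuousOn h (tsupport f) →
      (∀ z ∈ tsupport f, |h z| ≤ B) → |∫ z, f z * h z| ≤ B * ∫ z, |f z| := by
    intro h B hh hB
    rw [← integral_const_mul]
    refine abs_integral_le_integral_abs.trans (integral_mono
      (integrable_mul_of_continuousOn hf.continuous hc hh).abs (hfi.abs.const_mul B) fun z => ?_)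
    by_cases hz : z ∈ tsupport f
    · simp only [abs_mul]; nlinarith [hB z hz, abs_nonneg (f z)]
    · simp [image_eq_zero_of_notMem_tsupport hz]
  have hcs : ∀ z ∈ tsupport f, ‖x - z‖ ≠ 0 := fun z hz => norm_ne_zero_iff.2 (hne z hz)
  constructor
  · have hh : ContinuousOn (fun z => logK (x - z)) (tsupport f) :=
      (Continuous.continuousOn (by fun_prop : Continuous fun z : ℂ => ‖x - z‖)).log hcs
    have h1 : ∫ z, f z * logK (x - z) = ∫ z, f z * (logK (x - z) - logK x) := by
      simp only [mul_sub]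
      rw [integral_sub (integrable_mul_of_continuousOn hf.continuous hc hh) (hfi.mul_const _),
        integral_mul_const, h0, zero_mul, sub_zero]
    rw [pot_eq, h1, abs_mul, abs_of_pos (a := (2 * π)⁻¹) (by positivity),
      mul_div_assoc]
    refine mul_le_mul_of_nonneg_left ((est _ (2 * ρ / ‖x‖) (hh.sub continuousOn_const)
      fun z hz => ?_).trans (le_of_eq (by ring))) (by positivity)
    obtain ⟨hz1, hz2⟩ := hfar z hz
    refine (abs_log_sub_log_le (half_pos hx0) hz2 (by linarith)).trans ?_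
    have h3 : |‖x - z‖ - ‖x‖| ≤ ρ := by
      refine (abs_norm_sub_norm_le _ _).trans ?_
      simpa using hz1
    rw [div_le_div_iff₀ (half_pos hx0) hx0]
    nlinarith
  · intro e
    set k : ℂ → ℝ := fun z => ⟪((1 : ℝ) / ‖x - z‖) ^ 2 • (x - z), e⟫ with hk
    have hkc : ContinuousOn k (tsupport f) :=
      ((((continuousOn_const.div (Continuous.continuousOn (by fun_prop)) hcs).pow 2).smul
        (Continuous.continuousOn (by fun_prop))).inner continuousOn_const)
    have hd : ∀ z ∈ tsupport f, HasFDerivAt (fun z => logK (x - z))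
        (-((‖x - z‖ ^ 2)⁻¹ • innerSL ℝ (x - z))) z := by
      intro z hz
      have h1 := (((hasStrictFDerivAt_norm_sq (x - z)).hasFDerivAt.log
        (pow_ne_zero 2 (hcs z hz))).const_mul (2⁻¹ : ℝ)).comp z ((hasFDerivAt_id z).const_sub x)
      refine (h1.congr_of_eventuallyEq (Eventually.of_forall fun w => ?_)).congr_fderiv ?_
      · simp [logK, Real.log_pow]
      · ext v; simp; ring
    have hkey : ∀ z ∈ tsupport f, fderiv ℝ (fun z => logK (x - z)) z e = -k z := by
      intro z hz
      rw [(hd z hz).fderiv]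
      simp only [hk, real_inner_smul_left, ContinuousLinearMap.neg_apply,
        ContinuousLinearMap.smul_apply, innerSL_apply_apply, smul_eq_mul, one_div, inv_pow]
    have i1 := integrable_mul_of_continuousOn (hf.continuous) hc hkc
    have i2 : Integrable (fun z => fderiv ℝ (fun z => logK (x - z)) z e * f z) := by
      refine i1.neg.congr (Eventually.of_forall fun z => ?_)
      by_cases hz : z ∈ tsupport f
      · simp [hkey z hz, mul_comm]
      · simp [image_eq_zero_of_notMem_tsupport hz]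
    have hlc : ContinuousOn (fun z => logK (x - z)) (tsupport f) := fun z hz =>
      (hd z hz).continuousAt.continuousWithinAt
    have i3 : Integrable (fun z => logK (x - z) * fderiv ℝ f z e) := by
      simpa [mul_comm, pd] using integrable_mul_of_continuousOn (contDiff_pd hf e).continuous
        (hc.fderiv_apply ℝ e) (hlc.mono (tsupport_fderiv_apply_subset ℝ e))
    have i4 : Integrable (fun z => logK (x - z) * f z) := by
      simpa [mul_comm] using integrable_mul_of_continuousOn hf.continuous hc hlc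
    have hibp := integral_mul_fderiv_eq_neg_fderiv_mul_of_integrable
      (μ := (volume : Measure ℂ)) (v := e) i2 i3 i4
      (fun z hz => (hd z hz).differentiableAt)
      (fun z _ => (hf.differentiable (by simp)).differentiableAt)
    have h1 : ∫ z, pd e f z * logK (x - z) = ∫ z, f z * k z := by
      simp only [pd, mul_comm (fderiv ℝ f _ e)]
      rw [hibp, ← integral_neg]
      refine integral_congr_ae (Eventually.of_forall fun z => ?_)
      by_cases hz : z ∈ tsupport f
      · simp [hkey z hz, mul_comm]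
      · simp [image_eq_zero_of_notMem_tsupport hz]
    set k₀ : ℝ := ⟪((1 : ℝ) / ‖x‖) ^ 2 • x, e⟫ with hk₀
    have h2 : ∫ z, f z * k z = ∫ z, f z * (k z - k₀) := by
      simp only [mul_sub]
      rw [integral_sub i1 (hfi.mul_const _), integral_mul_const, h0, zero_mul, sub_zero]
    rw [pd_pot hf hc, pot_eq, h1, h2, abs_mul, abs_of_pos (a := (2 * π)⁻¹) (by positivity)]
    rw [mul_assoc, mul_div_assoc]
    refine mul_le_mul_of_nonneg_left ((est _ (2 * ρ * ‖e‖ / ‖x‖ ^ 2)
      (hkc.sub continuousOn_const) fun z hz => ?_).trans (le_of_eq (by ring))) (by positivity)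
    obtain ⟨hz1, hz2⟩ := hfar z hz
    simp only [Pi.sub_apply, hk, hk₀, ← inner_sub_left]
    refine (abs_real_inner_le_norm _ _).trans ?_
    have hdist := EuclideanGeometry.dist_inversion_inversion (c := (0 : ℂ)) (hne z hz)
      (norm_pos_iff.1 hx0) 1
    simp only [EuclideanGeometry.inversion, dist_zero_right, vsub_eq_sub, sub_zero, vadd_eq_add,
      add_zero, dist_eq_norm, one_pow, sub_sub_cancel_left, norm_neg] at hdist
    rw [hdist, mul_div_right_comm]
    refine mul_le_mul_of_nonneg_right ?_ (norm_nonneg e)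
    rw [one_div_mul_eq_div, div_le_div_iff₀ (mul_pos ((half_pos hx0).trans_le hz2) hx0)
      (pow_pos hx0 2)]
    nlinarith [mul_le_mul hz1 le_rfl (by positivity : (0 : ℝ) ≤ ‖x‖ * (‖x‖ / 2)) hρ0.le,
      mul_le_mul_of_nonneg_left hz2 (mul_nonneg hρ0.le hx0.le)]

end Vale.Agent.P128.KeyAux
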