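import Vale.Agent.P128.Key.Interface

/-!
# P128, piece E2: a piece of `K` carrying two independent Neumann fields is removable

`removable`: if two divergence free, pointwise independent fields on a disc are orthogonal to every
gradient of a test function jumping on `K`, then the disc misses `K`.

Testing with `ξ θ(u)` shows that `∇u` is curl free across `K`; radial mollification makes
`u_x - i u_y` holomorphic on the disc; testing with `ξ θ(u - ũ)` (`ũ` the primitive) shows that
`u = ũ + const` off `K`, so deleting `K` in the disc gains length.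
-/

open MeasureTheory Set Metric Filter
open scoped ENNReal Topology Real Convolution

noncomputable section

namespace Vale.Agent.P128

/-- The determinant of two plane vectors. -/
def cross (a b : ℂ) : ℝ := a.re * b.im - a.im * b.re

/-- Divergence of a plane vector field. -/
def vdiv (G : ℂ → ℂ) (z : ℂ) : ℝ := (fderiv ℝ G z 1).re + (fderiv ℝ G z Complex.I).im

namespace Removable

theorem clm_apply_eq (A : ℂ →L[ℝ] ℝ) (w : ℂ) : A w = w.re * A 1 + w.im * A Complex.I := by
  conv_lhs => rw [show w = w.re • (1 : ℂ) + w.im • Complex.I by apply Complex.ext <;> simp]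
  rw [map_add, map_smul, map_smul, smul_eq_mul, smul_eq_mul]

theorem abs_fderiv_le (v : ℂ → ℝ) (z w : ℂ) :
    |fderiv ℝ v z w| ≤ ‖w‖ * (1 + gradSq v z) := by
  rw [clm_apply_eq (fderiv ℝ v z) w]
  have h1 := Complex.abs_re_le_norm w
  have h2 := Complex.abs_im_le_norm w
  have key : ∀ a b : ℝ, |a| + |b| ≤ 1 + (a ^ 2 + b ^ 2) := fun a b => by
    nlinarith [sq_nonneg (|a| - 1 / 2), sq_nonneg (|b| - 1 / 2), sq_abs a, sq_abs b]
  calc |w.re * fderiv ℝ v z 1 + w.im * fderiv ℝ v z Complex.I|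
      ≤ |w.re| * |fderiv ℝ v z 1| + |w.im| * |fderiv ℝ v z Complex.I| := by
        rw [← abs_mul, ← abs_mul]; exact abs_add_le _ _
    _ ≤ ‖w‖ * (|fderiv ℝ v z 1| + |fderiv ℝ v z Complex.I|) := by
        rw [mul_add]; gcongr
    _ ≤ _ := mul_le_mul_of_nonneg_left (key _ _) (norm_nonneg w)

theorem locallyLipschitzOn_of_contDiffAt {U : Set ℂ} {f : ℂ → ℝ}
    (hf : ∀ z ∈ U, ContDiffAt ℝ 1 f z) : LocallyLipschitzOn U f := by
  intro z hz
  obtain ⟨c, t, ht, hl⟩ := (hf z hz).exists_lipschitzOnWith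
  exact ⟨c, t, nhdsWithin_le_nhds ht, hl⟩

variable {K : Set ℂ} {u : ℂ → ℝ}

theorem ae_notMem (h : IsGM K u) : ∀ᵐ z : ℂ, z ∉ K :=
  measure_eq_zero_iff_ae_notMem.1 h.volume_eq_zero

theorem restrict_compl (h : IsGM K u) : (volume : Measure ℂ).restrict Kᶜ = volume :=
  Measure.restrict_eq_self_of_ae_mem (ae_notMem h)

theorem setIntegral_compl (h : IsGM K u) (g : ℂ → ℝ) : ∫ z in Kᶜ, g z = ∫ z, g z := by
  rw [restrict_compl h]

theorem aesm_u (h : IsGM K u) : AEStronglyMeasurable u volume := by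
  have := h.continuousOn.aestronglyMeasurable (μ := volume) h.isOpen_compl.measurableSet
  rwa [restrict_compl h] at this

theorem measurable_gradSq (v : ℂ → ℝ) : Measurable (gradSq v) :=
  ((measurable_fderiv_apply_const ℝ v 1).pow_const 2).add
    ((measurable_fderiv_apply_const ℝ v Complex.I).pow_const 2)

theorem integrableOn_gradSq (h : IsGM K u) (c : ℂ) (r : ℝ) :
    IntegrableOn (gradSq u) (ball c r) := by
  refine ⟨(measurable_gradSq u).aestronglyMeasurable, ?_⟩
  rw [hasFiniteIntegral_iff_ofReal (Eventually.of_forall fun z => gradSq_nonneg u z)]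
  have hd := h.dirichlet_lt_top c r
  unfold dirichlet at hd
  rwa [setLIntegral_congr (sdiff_null_ae_eq_self h.volume_eq_zero)] at hd

/-- Integrability by comparison with `1 + |∇u|²` inside a disc. -/
theorem integrable_of_bound (h : IsGM K u) {E : Type*} [NormedAddCommGroup E] {g : ℂ → E}
    (hm : AEStronglyMeasurable g volume) {p : ℂ} {r C : ℝ}
    (hb : ∀ᵐ z, z ∈ ball p r → ‖g z‖ ≤ C * (1 + gradSq u z))
    (h0 : ∀ z ∉ ball p r, g z = 0) : Integrable g := by
  have hd : Integrable ((ball p r).indicator fun z => C * (1 + gradSq u z)) := by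
    rw [integrable_indicator_iff measurableSet_ball]
    exact ((integrableOn_const (measure_ball_lt_top).ne).add (integrableOn_gradSq h p r)).const_mul C
  refine hd.mono' hm ?_
  filter_upwards [hb] with z hz
  by_cases hzb : z ∈ ball p r
  · rw [indicator_of_mem hzb]; exact hz hzb
  · rw [indicator_of_notMem hzb, h0 z hzb, norm_zero]

/-- The complex gradient `u_x - i u_y`. -/
def cgrad (u : ℂ → ℝ) (z : ℂ) : ℂ := fderiv ℝ u z 1 - Complex.I * fderiv ℝ u z Complex.I

theorem measurable_cgrad : Measurable (cgrad u) :=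
  (Complex.measurable_ofReal.comp (measurable_fderiv_apply_const ℝ u 1)).sub
    ((Complex.measurable_ofReal.comp
      (measurable_fderiv_apply_const ℝ u Complex.I)).const_mul _)

theorem norm_cgrad_le (z : ℂ) : ‖cgrad u z‖ ≤ 2 * (1 + gradSq u z) := by
  have h1 := abs_fderiv_le u z 1
  have h2 := abs_fderiv_le u z Complex.I
  simp only [norm_one, Complex.norm_I, one_mul] at h1 h2
  refine (norm_sub_le _ _).trans ?_
  simp only [norm_mul, Complex.norm_I, one_mul, Complex.norm_real, Real.norm_eq_abs]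
  linarith

theorem locallyIntegrable_cgrad (h : IsGM K u) : LocallyIntegrable (cgrad u) volume := by
  rw [locallyIntegrable_iff]
  intro C hC
  obtain ⟨r, hr⟩ := hC.isBounded.subset_ball 0
  have hd : Integrable ((ball (0 : ℂ) r).indicator (cgrad u)) :=
    integrable_of_bound h (measurable_cgrad.indicator measurableSet_ball).aestronglyMeasurable
      (p := 0) (r := r) (C := 2)
      (Eventually.of_forall fun z hz => by rw [indicator_of_mem hz]; exact norm_cgrad_le z)
      fun z hz => indicator_of_notMem hz _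
  rw [integrable_indicator_iff measurableSet_ball] at hd
  exact hd.mono_set hr

theorem differentiableAt_cgrad (h : IsGM K u) {z : ℂ} (hz : z ∉ K) :
    DifferentiableAt ℂ (cgrad u) z :=
  HarmonicAt.differentiableAt_complex_partial (h.harmonic z hz)

/-- What the two fields give: divergence identities for the bounded functions `θ ∘ v`. -/
theorem field_test (h : IsGM K u) {p : ℂ} {ρ : ℝ} {G₁ G₂ : ℂ → ℂ}
    (h₁ : ContDiffOn ℝ 1 G₁ (ball p ρ)) (h₂ : ContDiffOn ℝ 1 G₂ (ball p ρ))
    (d₁ : ∀ z ∈ ball p ρ, vdiv G₁ z = 0) (d₂ : ∀ z ∈ ball p ρ, vdiv G₂ z = 0)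
    (hind : ∀ z ∈ ball p ρ, cross (G₁ z) (G₂ z) ≠ 0)
    (t₁ : IsFluxFree K G₁ p ρ) (t₂ : IsFluxFree K G₂ p ρ)
    {V : Set ℂ} (hV : IsOpen V) (hVB : V ⊆ ball p ρ)
    {v : ℂ → ℝ} (hv : ContDiffOn ℝ 1 v (V \ K))
    (hvu : ∀ z ∈ V \ K, gradSq v z ≤ gradSq u z)
    {θ θ' : ℝ → ℝ} (hθ : ∀ t, HasDerivAt θ (θ' t) t) (hθC : ContDiff ℝ 1 θ)
    {M N : ℝ} (hM : ∀ t, |θ t| ≤ M) (hN : ∀ t, |θ' t| ≤ N)
    {Ψ : ℂ → ℂ} (hΨ : ContDiff ℝ 1 Ψ) (hΨc : HasCompactSupport Ψ) (hΨs : tsupport Ψ ⊆ V) :
    Integrable (fun z => θ (v z) * vdiv Ψ z + θ' (v z) * fderiv ℝ v z (Ψ z)) ∧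
      ∫ z, (θ (v z) * vdiv Ψ z + θ' (v z) * fderiv ℝ v z (Ψ z)) = 0 := by
  have hVo : IsOpen (V \ K) := hV.sdiff h.isClosed
  set ξ₁ : ℂ → ℝ := fun z => cross (Ψ z) (G₂ z) / cross (G₁ z) (G₂ z) with hξ₁
  set ξ₂ : ℂ → ℝ := fun z => cross (G₁ z) (Ψ z) / cross (G₁ z) (G₂ z) with hξ₂
  have hs₁ : Function.support ξ₁ ⊆ Function.support Ψ := by
    intro z hz hΨz
    simp [hξ₁, cross, hΨz] at hz
  have hs₂ : Function.support ξ₂ ⊆ Function.support Ψ := by
    intro z hz hΨz
    simp [hξ₂, cross, hΨz] at hz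
  have hts₁ : tsupport ξ₁ ⊆ tsupport Ψ := closure_mono hs₁
  have hts₂ : tsupport ξ₂ ⊆ tsupport Ψ := closure_mono hs₂
  have hre : ContDiff ℝ 1 fun z => (Ψ z).re := Complex.reCLM.contDiff.comp hΨ
  have him : ContDiff ℝ 1 fun z => (Ψ z).im := Complex.imCLM.contDiff.comp hΨ
  have hr₁ := Complex.reCLM.contDiff.comp_contDiffOn h₁
  have hi₁ := Complex.imCLM.contDiff.comp_contDiffOn h₁
  have hr₂ := Complex.reCLM.contDiff.comp_contDiffOn h₂
  have hi₂ := Complex.imCLM.contDiff.comp_contDiffOn h₂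
  have hden : ContDiffOn ℝ 1 (fun z => cross (G₁ z) (G₂ z)) (ball p ρ) :=
    (hr₁.mul hi₂).sub (hi₁.mul hr₂)
  have glue : ∀ ξ : ℂ → ℝ, tsupport ξ ⊆ tsupport Ψ → ContDiffOn ℝ 1 ξ (ball p ρ) →
      ContDiff ℝ 1 ξ := by
    intro ξ hs hon
    rw [contDiff_iff_contDiffAt]
    intro z
    by_cases hz : z ∈ ball p ρ
    · exact hon.contDiffAt (isOpen_ball.mem_nhds hz)
    · exact contDiffAt_const.congr_of_eventuallyEq
        (notMem_tsupport_iff_eventuallyEq.1 fun hc => hz (hVB (hΨs (hs hc))))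
  have hξ₁C : ContDiff ℝ 1 ξ₁ :=
    glue _ hts₁ (((hre.contDiffOn.mul hi₂).sub (him.contDiffOn.mul hr₂)).div hden hind)
  have hξ₂C : ContDiff ℝ 1 ξ₂ :=
    glue _ hts₂ (((hr₁.mul him.contDiffOn).sub (hi₁.mul hre.contDiffOn)).div hden hind)
  -- one field
  have one : ∀ (ξ : ℂ → ℝ) (G : ℂ → ℂ), ContDiff ℝ 1 ξ → tsupport ξ ⊆ tsupport Ψ →
      ContinuousOn G (ball p ρ) → IsFluxFree K G p ρ →
      Integrable (fun z => fderiv ℝ (fun z => ξ z * θ (v z)) z (G z)) ∧
        ∫ z, fderiv ℝ (fun z => ξ z * θ (v z)) z (G z) = 0 := by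
    intro ξ G hξC hξs hG hT
    set φ : ℂ → ℝ := fun z => ξ z * θ (v z)
    have hξc : HasCompactSupport ξ := hΨc.of_isClosed_subset (isClosed_tsupport _) hξs
    have hφs : tsupport φ ⊆ tsupport ξ := tsupport_mul_subset_left
    have hφc : HasCompactSupport φ := hξc.of_isClosed_subset (isClosed_tsupport _) hφs
    have hφB : tsupport φ ⊆ ball p ρ := (hφs.trans hξs).trans (hΨs.trans hVB)
    have hout : ∀ z ∉ tsupport φ, fderiv ℝ φ z = 0 := fun z hz =>
      fderiv_of_notMem_tsupport ℝ hz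
    have hcd : ∀ z ∈ Kᶜ, ContDiffAt ℝ 1 φ z := by
      intro z hz
      by_cases hzV : z ∈ V
      · exact hξC.contDiffAt.mul
          (hθC.contDiffAt.comp z (hv.contDiffAt (hVo.mem_nhds ⟨hzV, hz⟩)))
      · exact contDiffAt_const.congr_of_eventuallyEq
          (notMem_tsupport_iff_eventuallyEq.1 fun hc => hzV (hΨs (hξs (hφs hc))))
    obtain ⟨Cξ, hCξ⟩ := hξc.exists_bound_of_continuous hξC.continuous
    have hdξc := hξc.fderiv (𝕜 := ℝ)
    obtain ⟨Dξ, hDξ⟩ := hdξc.exists_bound_of_continuous (hξC.continuous_fderiv one_ne_zero)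
    have hM0 : 0 ≤ M := (abs_nonneg _).trans (hM 0)
    have hN0 : 0 ≤ N := (abs_nonneg _).trans (hN 0)
    have hC0 : 0 ≤ Cξ := (norm_nonneg _).trans (hCξ 0)
    -- pointwise bounds off `K`
    have hbd : ∀ z ∉ K, (∀ w, |fderiv ℝ φ z w| ≤ ‖w‖ * ((Dξ * M + Cξ * N) * (1 + gradSq u z))) ∧
        gradSq φ z ≤ (4 * (Dξ * M) ^ 2 + 2 * (Cξ * N) ^ 2) * (1 + gradSq u z) := by
      intro z hz
      have hD0 : 0 ≤ Dξ := (norm_nonneg _).trans (hDξ 0)
      by_cases hzV : z ∈ V
      · have hdv : DifferentiableAt ℝ v z :=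
          (hv.contDiffAt (hVo.mem_nhds ⟨hzV, hz⟩)).differentiableAt one_ne_zero
        have hd : HasFDerivAt φ (ξ z • (θ' (v z) • fderiv ℝ v z) + θ (v z) • fderiv ℝ ξ z) z :=
          (hξC.differentiable one_ne_zero).differentiableAt.hasFDerivAt.mul
            ((hθ _).comp_hasFDerivAt z hdv.hasFDerivAt)
        have happ : ∀ w, fderiv ℝ φ z w =
            ξ z * (θ' (v z) * fderiv ℝ v z w) + θ (v z) * fderiv ℝ ξ z w := fun w => by
          rw [hd.fderiv]; simp
        have hξw : ∀ w, |fderiv ℝ ξ z w| ≤ Dξ * ‖w‖ := fun w =>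
          ((fderiv ℝ ξ z).le_opNorm w).trans (by gcongr; exact hDξ z)
        have hξz : |ξ z| ≤ Cξ := hCξ z
        have hg := gradSq_nonneg u z
        refine ⟨fun w => ?_, ?_⟩
        · rw [happ]
          refine (abs_add_le _ _).trans ?_
          have a1 : |ξ z * (θ' (v z) * fderiv ℝ v z w)| ≤
              Cξ * (N * (‖w‖ * (1 + gradSq u z))) := by
            rw [abs_mul, abs_mul]
            gcongr
            · exact hN _
            · exact (abs_fderiv_le v z w).trans (by gcongr; exact hvu z ⟨hzV, hz⟩)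
          have a2 : |θ (v z) * fderiv ℝ ξ z w| ≤ M * (Dξ * ‖w‖) := by
            rw [abs_mul]; exact mul_le_mul (hM _) (hξw w) (abs_nonneg _) hM0
          have a3 : (0 : ℝ) ≤ M * Dξ * ‖w‖ * gradSq u z := by positivity
          linarith
        · have sq2 : ∀ w : ℂ, ‖w‖ = 1 → (fderiv ℝ φ z w) ^ 2 ≤
              2 * (Dξ * M) ^ 2 + 2 * (Cξ * N) ^ 2 * (fderiv ℝ v z w) ^ 2 := by
            intro w hw
            rw [happ]
            have a1 : (θ (v z) * fderiv ℝ ξ z w) ^ 2 ≤ (Dξ * M) ^ 2 := by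
              refine sq_le_sq.2 ?_
              rw [abs_mul, abs_of_nonneg (mul_nonneg hD0 hM0), mul_comm Dξ M]
              exact mul_le_mul (hM _) (by simpa [hw] using hξw w) (abs_nonneg _) hM0
            have a2 : (ξ z * θ' (v z)) ^ 2 ≤ (Cξ * N) ^ 2 := by
              refine sq_le_sq.2 ?_
              rw [abs_mul, abs_of_nonneg (mul_nonneg hC0 hN0)]
              exact mul_le_mul hξz (hN _) (abs_nonneg _) hC0
            nlinarith [sq_nonneg (ξ z * (θ' (v z) * fderiv ℝ v z w) - θ (v z) * fderiv ℝ ξ z w),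
              mul_le_mul_of_nonneg_right a2 (sq_nonneg (fderiv ℝ v z w))]
          have e1 := sq2 1 norm_one
          have e2 := sq2 Complex.I Complex.norm_I
          have hgv : (fderiv ℝ v z 1) ^ 2 + (fderiv ℝ v z Complex.I) ^ 2 ≤ gradSq u z :=
            hvu z ⟨hzV, hz⟩
          have e3 := mul_le_mul_of_nonneg_left hgv
            (show (0 : ℝ) ≤ 2 * (Cξ * N) ^ 2 by positivity)
          have e4 := mul_nonneg (show (0 : ℝ) ≤ 4 * (Dξ * M) ^ 2 by positivity) hg
          unfold gradSq at *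
          nlinarith [sq_nonneg (Cξ * N)]
      · have h0 : fderiv ℝ φ z = 0 := hout z fun hc => hzV (hΨs (hξs (hφs hc)))
        have hg := gradSq_nonneg u z
        refine ⟨fun w => ?_, ?_⟩
        · simp only [h0, _root_.zero_apply, abs_zero]; positivity
        · have hlhs : gradSq φ z = 0 := by simp [gradSq, h0]
          rw [hlhs]; positivity
    have hdir : dirichlet K φ univ < ⊤ := by
      unfold dirichlet
      rw [setLIntegral_congr (sdiff_null_ae_eq_self h.volume_eq_zero), Measure.restrict_univ]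
      have hint : Integrable (gradSq φ) :=
        integrable_of_bound h (measurable_gradSq φ).aestronglyMeasurable (p := p) (r := ρ)
          (by filter_upwards [ae_notMem h] with z hz _
              rw [Real.norm_eq_abs, abs_of_nonneg (gradSq_nonneg φ z)]
              exact (hbd z hz).2)
          fun z hz => by simp [gradSq, hout z fun hc => hz (hφB hc)]
      exact (hasFiniteIntegral_iff_ofReal
        (Eventually.of_forall fun z => gradSq_nonneg φ z)).1 hint.2
    have hGt : ContinuousOn G (tsupport φ) := hG.mono hφB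
    obtain ⟨CG, hCG⟩ := hφc.exists_bound_of_continuousOn hGt
    have hint : Integrable (fun z => fderiv ℝ φ z (G z)) := by
      refine integrable_of_bound h ?_ (p := p) (r := ρ)
        (C := max CG 0 * (Dξ * M + Cξ * N)) ?_ ?_
      · have heq : (fun z => fderiv ℝ φ z (G z)) = (tsupport φ).indicator
            (fun z => (G z).re * fderiv ℝ φ z 1 + (G z).im * fderiv ℝ φ z Complex.I) := by
          funext z
          by_cases hz : z ∈ tsupport φ
          · rw [indicator_of_mem hz]; exact clm_apply_eq _ _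
          · rw [indicator_of_notMem hz, hout z hz]; rfl
        rw [heq, aestronglyMeasurable_indicator_iff (isClosed_tsupport φ).measurableSet]
        exact (((Complex.continuous_re.comp_continuousOn hGt).aestronglyMeasurable
            (isClosed_tsupport φ).measurableSet).mul
              (measurable_fderiv_apply_const ℝ φ 1).aestronglyMeasurable).add
          (((Complex.continuous_im.comp_continuousOn hGt).aestronglyMeasurable
            (isClosed_tsupport φ).measurableSet).mul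
              (measurable_fderiv_apply_const ℝ φ Complex.I).aestronglyMeasurable)
      · filter_upwards [ae_notMem h] with z hz _
        have hD0 : 0 ≤ Dξ := (norm_nonneg _).trans (hDξ 0)
        have hg := gradSq_nonneg u z
        by_cases hzs : z ∈ tsupport φ
        · refine ((hbd z hz).1 (G z)).trans ?_
          rw [mul_assoc (max CG 0)]
          gcongr
          exact le_max_of_le_left (hCG z hzs)
        · rw [hout z hzs]
          simp only [_root_.zero_apply, norm_zero]
          have := le_max_right CG 0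
          positivity
      · exact fun z hz => by simp [hout z fun hc => hz (hφB hc)]
    refine ⟨hint, ?_⟩
    rw [← setIntegral_compl h]
    exact hT φ (locallyLipschitzOn_of_contDiffAt hcd) hφc hφB hdir
  obtain ⟨i₁, e₁⟩ := one ξ₁ G₁ hξ₁C hts₁ h₁.continuousOn t₁
  obtain ⟨i₂, e₂⟩ := one ξ₂ G₂ hξ₂C hts₂ h₂.continuousOn t₂
  have key : (fun z => fderiv ℝ (fun z => ξ₁ z * θ (v z)) z (G₁ z) +
      fderiv ℝ (fun z => ξ₂ z * θ (v z)) z (G₂ z)) =ᵐ[volume]
      fun z => θ (v z) * vdiv Ψ z + θ' (v z) * fderiv ℝ v z (Ψ z) := by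
    filter_upwards [ae_notMem h] with z hz
    by_cases hzV : z ∈ V
    · have hzB := hVB hzV
      have hdv : DifferentiableAt ℝ v z :=
        (hv.contDiffAt (hVo.mem_nhds ⟨hzV, hz⟩)).differentiableAt one_ne_zero
      have hg₁ := (h₁.contDiffAt (isOpen_ball.mem_nhds hzB)).differentiableAt one_ne_zero
      have hg₂ := (h₂.contDiffAt (isOpen_ball.mem_nhds hzB)).differentiableAt one_ne_zero
      have hx₁ := ((hξ₁C.differentiable one_ne_zero) z).hasFDerivAt
      have hx₂ := ((hξ₂C.differentiable one_ne_zero) z).hasFDerivAt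
      have f₁ : HasFDerivAt (fun z => ξ₁ z * θ (v z))
          (ξ₁ z • (θ' (v z) • fderiv ℝ v z) + θ (v z) • fderiv ℝ ξ₁ z) z :=
        hx₁.fun_mul ((hθ _).comp_hasFDerivAt z hdv.hasFDerivAt)
      have f₂ : HasFDerivAt (fun z => ξ₂ z * θ (v z))
          (ξ₂ z • (θ' (v z) • fderiv ℝ v z) + θ (v z) • fderiv ℝ ξ₂ z) z :=
        hx₂.fun_mul ((hθ _).comp_hasFDerivAt z hdv.hasFDerivAt)
      rw [f₁.fderiv, f₂.fderiv]
      have hΨeq : ∀ x ∈ ball p ρ, Ψ x = ξ₁ x • G₁ x + ξ₂ x • G₂ x := by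
        intro x hx
        have hx0 := hind x hx
        simp only [hξ₁, hξ₂, cross] at hx0 ⊢
        apply Complex.ext
        · simp only [Complex.add_re, Complex.real_smul, Complex.mul_re, Complex.ofReal_re,
            Complex.ofReal_im, zero_mul, sub_zero]
          rw [div_mul_eq_mul_div, div_mul_eq_mul_div, ← add_div, eq_div_iff hx0]; ring
        · simp only [Complex.add_im, Complex.real_smul, Complex.mul_im, Complex.ofReal_re,
            Complex.ofReal_im, zero_mul, add_zero]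
          rw [div_mul_eq_mul_div, div_mul_eq_mul_div, ← add_div, eq_div_iff hx0]; ring
      have hdΨ : HasFDerivAt Ψ ((ξ₁ z • fderiv ℝ G₁ z + (fderiv ℝ ξ₁ z).smulRight (G₁ z)) +
          (ξ₂ z • fderiv ℝ G₂ z + (fderiv ℝ ξ₂ z).smulRight (G₂ z))) z :=
        ((hx₁.smul hg₁.hasFDerivAt).add (hx₂.smul hg₂.hasFDerivAt)).congr_of_eventuallyEq
          (eventually_of_mem (isOpen_ball.mem_nhds hzB) hΨeq)
      have e0 : vdiv Ψ z = fderiv ℝ ξ₁ z (G₁ z) + fderiv ℝ ξ₂ z (G₂ z) := by
        have a1 := d₁ z hzB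
        have a2 := d₂ z hzB
        rw [clm_apply_eq (fderiv ℝ ξ₁ z) (G₁ z), clm_apply_eq (fderiv ℝ ξ₂ z) (G₂ z)]
        simp only [vdiv, hdΨ.fderiv] at a1 a2 ⊢
        simp [Complex.mul_re, Complex.mul_im]
        linear_combination ξ₁ z * a1 + ξ₂ z * a2
      have e3 : fderiv ℝ v z (Ψ z) =
          ξ₁ z * fderiv ℝ v z (G₁ z) + ξ₂ z * fderiv ℝ v z (G₂ z) := by
        rw [hΨeq z hzB, map_add, map_smul, map_smul]; rfl
      rw [e0, e3]
      simp
      ring
    · have hzn : z ∉ tsupport Ψ := fun hc => hzV (hΨs hc)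
      have a1 : fderiv ℝ (fun z => ξ₁ z * θ (v z)) z = 0 :=
        fderiv_of_notMem_tsupport ℝ fun hc => hzn (hts₁ (tsupport_mul_subset_left hc))
      have a2 : fderiv ℝ (fun z => ξ₂ z * θ (v z)) z = 0 :=
        fderiv_of_notMem_tsupport ℝ fun hc => hzn (hts₂ (tsupport_mul_subset_left hc))
      have a3 : fderiv ℝ Ψ z = 0 := fderiv_of_notMem_tsupport ℝ hzn
      simp [a1, a2, a3, vdiv, image_eq_zero_of_notMem_tsupport hzn]
  refine ⟨(i₁.add i₂).congr key, ?_⟩
  rw [← integral_congr_ae key, integral_add i₁ i₂, e₁, e₂, add_zero]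

/-- The Euler-Lagrange identity for the pair `(K, u)`. -/
def TestAt (K : Set ℂ) (u : ℂ → ℝ) : Prop :=
  ∀ φ : ℂ → ℝ, LocallyLipschitzOn Kᶜ φ → HasCompactSupport φ → dirichlet K φ univ < ⊤ →
    IntegrableOn (gradInner u φ) Kᶜ ∧ ∫ z in Kᶜ, gradInner u φ z = 0

/-! ### Curl and divergence of `∇u` across `K` -/

/-- `∂̄ (u_x - i u_y) = 0` weakly in the disc. -/
theorem weak_dbar (hT : TestAt K u) (hG : IsGM K u) {p : ℂ} {ρ : ℝ} {G₁ G₂ : ℂ → ℂ}
    (h₁ : ContDiffOn ℝ 1 G₁ (ball p ρ)) (h₂ : ContDiffOn ℝ 1 G₂ (ball p ρ))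
    (d₁ : ∀ z ∈ ball p ρ, vdiv G₁ z = 0) (d₂ : ∀ z ∈ ball p ρ, vdiv G₂ z = 0)
    (hind : ∀ z ∈ ball p ρ, cross (G₁ z) (G₂ z) ≠ 0)
    (t₁ : IsFluxFree K G₁ p ρ) (t₂ : IsFluxFree K G₂ p ρ)
    {ψ : ℂ → ℝ} (hψ : ContDiff ℝ 2 ψ) (hψc : HasCompactSupport ψ) (hψs : tsupport ψ ⊆ ball p ρ) :
    ∫ z, cgrad u z * ((fderiv ℝ ψ z 1 : ℂ) + Complex.I * fderiv ℝ ψ z Complex.I) = 0 := by
  set Ψ : ℂ → ℂ := fun z =>
    ((-fderiv ℝ ψ z Complex.I : ℝ) : ℂ) + (fderiv ℝ ψ z 1 : ℂ) * Complex.I with hΨdef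
  have hA : ∀ e : ℂ, ContDiff ℝ 1 fun z => fderiv ℝ ψ z e := fun e =>
    (hψ.fderiv_right (by norm_num)).clm_apply contDiff_const
  have hΨC : ContDiff ℝ 1 Ψ :=
    (Complex.ofRealCLM.contDiff.comp (hA Complex.I).neg).add
      ((Complex.ofRealCLM.contDiff.comp (hA 1)).mul contDiff_const)
  have hΨs : tsupport Ψ ⊆ tsupport ψ := by
    refine closure_minimal (fun z hz => ?_) (isClosed_tsupport ψ)
    by_contra hc
    simp [hΨdef, fderiv_of_notMem_tsupport ℝ hc] at hz
  have hΨc : HasCompactSupport Ψ := hψc.of_isClosed_subset (isClosed_tsupport _) hΨs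
  have hdiv : ∀ z, vdiv Ψ z = 0 := by
    intro z
    have hB : DifferentiableAt ℝ (fderiv ℝ ψ) z :=
      ((hψ.fderiv_right (m := 1) (by norm_num)).differentiable one_ne_zero) z
    have hd : ∀ e : ℂ, HasFDerivAt (fun z => fderiv ℝ ψ z e)
        ((fderiv ℝ (fderiv ℝ ψ) z).flip e) z := fun e => by
      simpa using hB.hasFDerivAt.clm_apply (hasFDerivAt_const e z)
    have hΨd : HasFDerivAt Ψ
        (Complex.ofRealCLM.comp (-(fderiv ℝ (fderiv ℝ ψ) z).flip Complex.I) +
          (Complex.ofRealCLM.comp ((fderiv ℝ (fderiv ℝ ψ) z).flip 1)).smulRight Complex.I) z :=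
      (Complex.ofRealCLM.hasFDerivAt.comp z (hd Complex.I).neg).add
        ((Complex.ofRealCLM.hasFDerivAt.comp z (hd 1)).mul_const' Complex.I)
    have hsym : IsSymmSndFDerivAt ℝ ψ z :=
      hψ.contDiffAt.isSymmSndFDerivAt (by simp)
    rw [vdiv, hΨd.fderiv]
    simp [hsym.eq 1 Complex.I]
  have hm : AEStronglyMeasurable (fun z => fderiv ℝ u z (Ψ z)) volume := by
    have heq : (fun z => fderiv ℝ u z (Ψ z)) =
        fun z => (Ψ z).re * fderiv ℝ u z 1 + (Ψ z).im * fderiv ℝ u z Complex.I :=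
      funext fun z => clm_apply_eq _ _
    rw [heq]
    exact (((Complex.continuous_re.comp hΨC.continuous).measurable.mul
      (measurable_fderiv_apply_const ℝ u 1)).add
      ((Complex.continuous_im.comp hΨC.continuous).measurable.mul
      (measurable_fderiv_apply_const ℝ u Complex.I))).aestronglyMeasurable
  obtain ⟨CΨ, hCΨ⟩ := hΨc.exists_bound_of_continuous hΨC.continuous
  have hint : Integrable (fun z => fderiv ℝ u z (Ψ z)) :=
    integrable_of_bound hG hm (p := p) (r := ρ) (C := CΨ)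
      (Eventually.of_forall fun z _ => (abs_fderiv_le u z (Ψ z)).trans
        (mul_le_mul_of_nonneg_right (hCΨ z) (by linarith [gradSq_nonneg u z])))
      fun z hz => by simp [image_eq_zero_of_notMem_tsupport fun hc => hz (hψs (hΨs hc))]
  have hcurl : ∫ z, fderiv ℝ u z (Ψ z) = 0 := by
    set a : ℕ → ℝ → ℝ := fun n t => 1 / (1 + (t / (n + 1)) ^ 2) with hadef
    have hn : ∀ n : ℕ, Integrable (fun z => a n (u z) * fderiv ℝ u z (Ψ z)) ∧
        ∫ z, a n (u z) * fderiv ℝ u z (Ψ z) = 0 := by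
      intro n
      have hn0 : (0 : ℝ) < n + 1 := by positivity
      have hθ : ∀ t : ℝ, HasDerivAt (fun t => ((n : ℝ) + 1) * Real.arctan (t / (n + 1)))
          (a n t) t := by
        intro t
        have hd := (((hasDerivAt_id t).div_const ((n : ℝ) + 1)).arctan).const_mul ((n : ℝ) + 1)
        refine hd.congr_deriv ?_
        simp only [hadef, id]
        field_simp
      have hft := field_test hG h₁ h₂ d₁ d₂ hind t₁ t₂ isOpen_ball subset_rfl
        ((hG.contDiffOn 1).mono fun z hz => hz.2) (fun z _ => le_rfl) hθ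
        (contDiff_const.mul (Real.contDiff_arctan.comp (contDiff_id.div_const _)))
        (M := ((n : ℝ) + 1) * (π / 2)) (N := 1)
        (fun t => by
          rw [abs_mul, abs_of_pos hn0]
          gcongr
          exact abs_le.2 ⟨(Real.neg_pi_div_two_lt_arctan _).le,
            (Real.arctan_lt_pi_div_two _).le⟩)
        (fun t => by
          rw [hadef, abs_of_nonneg (by positivity), div_le_one (by positivity)]
          nlinarith [sq_nonneg (t / ((n : ℝ) + 1))])
        hΨC hΨc (hΨs.trans hψs)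
      simpa [hdiv] using hft
    have hlim := tendsto_integral_of_dominated_convergence
      (F := fun (n : ℕ) z => a n (u z) * fderiv ℝ u z (Ψ z))
      (f := fun z => fderiv ℝ u z (Ψ z)) (fun z => |fderiv ℝ u z (Ψ z)|)
      (fun n => (hn n).1.aestronglyMeasurable) hint.norm
      (fun n => Eventually.of_forall fun z => by
        rw [Real.norm_eq_abs, abs_mul]
        refine mul_le_of_le_one_left (abs_nonneg _) ?_
        rw [hadef, abs_of_nonneg (by positivity), div_le_one (by positivity)]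
        nlinarith [sq_nonneg (u z / ((n : ℝ) + 1))])
      (Eventually.of_forall fun z => by
        have h0 : Tendsto (fun n : ℕ => u z / ((n : ℝ) + 1)) atTop (𝓝 0) :=
          tendsto_const_nhds.div_atTop
            (tendsto_natCast_atTop_atTop.atTop_add tendsto_const_nhds)
        have h1 := (tendsto_const_nhds (x := (1 : ℝ))).div
          ((tendsto_const_nhds (x := (1 : ℝ))).add (h0.pow 2)) (by norm_num)
        simpa [hadef] using h1.mul_const (fderiv ℝ u z (Ψ z)))
    exact tendsto_nhds_unique hlim (by simpa only [fun n => (hn n).2] using tendsto_const_nhds)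
  -- divergence
  obtain ⟨Dψ, hDψ⟩ := (hψc.fderiv (𝕜 := ℝ)).exists_bound_of_continuous
    (hψ.continuous_fderiv (by norm_num))
  have hdir : dirichlet K ψ univ < ⊤ := by
    unfold dirichlet
    rw [setLIntegral_congr (sdiff_null_ae_eq_self hG.volume_eq_zero), Measure.restrict_univ]
    have hi : Integrable (gradSq ψ) :=
      integrable_of_bound hG (measurable_gradSq ψ).aestronglyMeasurable (p := p) (r := ρ)
        (C := 2 * Dψ ^ 2)
        (Eventually.of_forall fun z _ => by
          have e : ∀ w : ℂ, ‖w‖ = 1 → (fderiv ℝ ψ z w) ^ 2 ≤ Dψ ^ 2 := fun w hw => by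
            refine sq_le_sq.2 ?_
            rw [abs_of_nonneg ((norm_nonneg _).trans (hDψ z))]
            simpa [hw] using ((fderiv ℝ ψ z).le_opNorm w).trans
              (mul_le_mul_of_nonneg_right (hDψ z) (norm_nonneg w))
          rw [Real.norm_eq_abs, abs_of_nonneg (gradSq_nonneg ψ z)]
          have e' := mul_nonneg (sq_nonneg Dψ) (gradSq_nonneg u z)
          have := e 1 norm_one
          have := e Complex.I Complex.norm_I
          have : gradSq ψ z = (fderiv ℝ ψ z 1) ^ 2 + (fderiv ℝ ψ z Complex.I) ^ 2 := rfl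
          nlinarith)
        fun z hz => by simp [gradSq, fderiv_of_notMem_tsupport ℝ fun hc => hz (hψs hc)]
    exact (hasFiniteIntegral_iff_ofReal
      (Eventually.of_forall fun z => gradSq_nonneg ψ z)).1 hi.2
  obtain ⟨hI, hdiv0⟩ := hT ψ (hψ.of_le (by norm_num)).locallyLipschitz.locallyLipschitzOn
    hψc hdir
  rw [setIntegral_compl hG] at hdiv0
  rw [IntegrableOn, restrict_compl hG] at hI
  have heq : (fun z => cgrad u z * ((fderiv ℝ ψ z 1 : ℂ) + Complex.I * fderiv ℝ ψ z Complex.I)) =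
      fun z => (gradInner u ψ z : ℂ) - Complex.I * (fderiv ℝ u z (Ψ z) : ℂ) := by
    funext z
    rw [clm_apply_eq (fderiv ℝ u z) (Ψ z)]
    simp only [cgrad, gradInner, hΨdef]
    apply Complex.ext
    · simp
    · simp; ring
  have hI' : Integrable fun z => (gradInner u ψ z : ℂ) := hI.ofReal
  have hJ' : Integrable fun z => Complex.I * (fderiv ℝ u z (Ψ z) : ℂ) :=
    Integrable.const_mul hint.ofReal Complex.I
  rw [heq, integral_sub hI' hJ', integral_const_mul,
    integral_complex_ofReal, integral_complex_ofReal, hdiv0, hcurl]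
  simp

/-! ### Radial mollifier -/

/-- Profile of the mollifier. -/
def prof (δ s : ℝ) : ℝ := Real.smoothTransition ((δ ^ 2 - s ^ 2) / δ ^ 2)

/-- Radial mollifier supported in the disc of radius `δ`. -/
def moll (δ : ℝ) (w : ℂ) : ℝ := prof δ ‖w‖

/-- Its mass. -/
def mass (δ : ℝ) : ℝ := ∫ w : ℂ, moll δ w

/-- Mollification. -/
def mollify {E : Type*} [NormedAddCommGroup E] [NormedSpace ℝ E] (δ : ℝ) (b : ℂ → E) (z : ℂ) :
    E :=
  (mass δ)⁻¹ • ∫ t, moll δ t • b (z - t)

variable {δ : ℝ}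

theorem prof_eq_zero {s : ℝ} (hδ : 0 ≤ δ) (hs : δ ≤ s) : prof δ s = 0 :=
  Real.smoothTransition.zero_of_nonpos
    (div_nonpos_of_nonpos_of_nonneg (by nlinarith) (sq_nonneg δ))

theorem moll_contDiff {n : ℕ∞} : ContDiff ℝ n (moll δ) :=
  Real.smoothTransition.contDiff.comp ((contDiff_const.sub (contDiff_norm_sq ℝ)).div_const _)

theorem moll_support (hδ : 0 ≤ δ) : tsupport (moll δ) ⊆ closedBall 0 δ := by
  refine closure_minimal (fun w hw => ?_) isClosed_closedBall
  rw [mem_closedBall_zero_iff]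
  by_contra hc
  exact hw (prof_eq_zero hδ (not_le.1 hc).le)

theorem moll_hasCompactSupport (hδ : 0 ≤ δ) : HasCompactSupport (moll δ) :=
  (isCompact_closedBall 0 δ).of_isClosed_subset (isClosed_tsupport _) (moll_support hδ)

theorem mass_pos (hδ : 0 < δ) : 0 < mass δ :=
  (moll_contDiff (n := 1)).continuous.integral_pos_of_hasCompactSupport_nonneg_nonzero
    (moll_hasCompactSupport hδ.le) (fun _ => Real.smoothTransition.nonneg _) (x := 0) (by
      have : moll δ 0 = 1 := by
        simp [moll, prof, hδ.ne', Real.smoothTransition.one_of_one_le le_rfl]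
      rw [this]; exact one_ne_zero)

/-- The test function that evaluates the derivative of `mollify` at `z`. -/
theorem probe (hδ : 0 ≤ δ) (z : ℂ) :
    ContDiff ℝ 2 (fun w => moll δ (z - w)) ∧ HasCompactSupport (fun w => moll δ (z - w)) ∧
      tsupport (fun w => moll δ (z - w)) ⊆ closedBall z δ ∧
      ∀ w e, fderiv ℝ (fun w => moll δ (z - w)) w e = -fderiv ℝ (moll δ) (z - w) e := by
  have hs : tsupport (fun w => moll δ (z - w)) ⊆ closedBall z δ := by
    refine closure_minimal (fun w hw => ?_) isClosed_closedBall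
    have := moll_support hδ (subset_tsupport _ hw)
    rw [mem_closedBall_zero_iff] at this
    rwa [mem_closedBall, dist_comm, dist_eq_norm]
  refine ⟨(moll_contDiff (n := 2)).comp (contDiff_const.sub contDiff_id),
    (isCompact_closedBall z δ).of_isClosed_subset (isClosed_tsupport _) hs, hs, fun w e => ?_⟩
  have h1 := ((moll_contDiff (δ := δ) (n := 1)).differentiable one_ne_zero
    (z - w)).hasFDerivAt.comp w ((hasFDerivAt_id w).const_sub z)
  show fderiv ℝ (moll δ ∘ HSub.hSub z) w e = _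
  rw [h1.fderiv]
  simp

theorem mollify_hasFDerivAt {E : Type*} [NormedAddCommGroup E] [NormedSpace ℝ E]
    [CompleteSpace E] (hδ : 0 ≤ δ) {b : ℂ → E} (hb : LocallyIntegrable b volume) (z : ℂ) :
    ∃ D : ℂ →L[ℝ] E, HasFDerivAt (mollify δ b) D z ∧
      ∀ e, D e = -((mass δ)⁻¹ • ∫ w, fderiv ℝ (fun w => moll δ (z - w)) w e • b w) := by
  have hd := (moll_hasCompactSupport hδ).hasFDerivAt_convolution_left
    (ContinuousLinearMap.lsmul ℝ ℝ : ℝ →L[ℝ] E →L[ℝ] E) (moll_contDiff (n := 1)) hb z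
  refine ⟨_, hd.const_smul (mass δ)⁻¹, fun e => ?_⟩
  have hint : ConvolutionExists (fderiv ℝ (moll δ)) b
      ((ContinuousLinearMap.lsmul ℝ ℝ : ℝ →L[ℝ] E →L[ℝ] E).precompL ℂ) volume :=
    ((moll_hasCompactSupport hδ).fderiv ℝ).convolutionExists_left _
      ((moll_contDiff (n := 1)).continuous_fderiv one_ne_zero) hb
  rw [smul_apply, convolution_def, ContinuousLinearMap.integral_apply (hint z), ← smul_neg,
    ← integral_neg, ← integral_sub_left_eq_self _ volume z]
  congr 1
  refine integral_congr_ae (Eventually.of_forall fun w => ?_)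
  simp [(probe hδ z).2.2.2 w e]

theorem mollify_eq_const {E : Type*} [NormedAddCommGroup E] [NormedSpace ℝ E] [CompleteSpace E]
    (hδ : 0 < δ) {b : ℂ → E} {z : ℂ} {a : E} (hb : ∀ w ∈ closedBall z δ, b w = a) :
    mollify δ b z = a := by
  have heq : (fun t => moll δ t • b (z - t)) = fun t => moll δ t • a := by
    funext t
    by_cases ht : t ∈ closedBall (0 : ℂ) δ
    · rw [hb (z - t) (by simpa [dist_eq_norm] using ht)]
    · rw [image_eq_zero_of_notMem_tsupport fun hc => ht (moll_support hδ.le hc)]; simp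
  rw [mollify, heq, integral_smul_const, smul_smul, ← mass, inv_mul_cancel₀ (mass_pos hδ).ne',
    one_smul]

/-- Mean value property against a radial weight. -/
theorem integral_radial (hδ : 0 < δ) {g : ℂ → ℂ}
    (hg : DifferentiableOn ℂ g (closedBall 0 δ)) :
    ∫ t, moll δ t • g t = mass δ • g 0 := by
  have key : ∀ g : ℂ → ℂ, DifferentiableOn ℂ g (closedBall 0 δ) →
      ∫ t, moll δ t • g t = ∫ r in Ioi (0 : ℝ), (r * prof δ r) • ((2 * π) • g 0) := by
    intro g hg
    rw [← Complex.integral_comp_polarCoord_symm, polarCoord_target, Measure.volume_eq_prod]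
    have hcov : ∀ q : ℝ × ℝ, Complex.polarCoord.symm q = circleMap 0 q.1 q.2 := fun q => by
      rw [Complex.polarCoord_symm_apply, circleMap_zero, Complex.exp_mul_I]; push_cast; ring
    have hint : IntegrableOn (fun q : ℝ × ℝ =>
        q.1 • moll δ (Complex.polarCoord.symm q) • g (Complex.polarCoord.symm q))
        (Ioi (0 : ℝ) ×ˢ Ioo (-π) π) (volume.prod volume) := by
      refine IntegrableOn.of_forall_sdiff_eq_zero (s := Icc 0 δ ×ˢ Icc (-π) π) ?_
        (measurableSet_Ioi.prod measurableSet_Ioo) ?_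
      · refine ContinuousOn.integrableOn_compact (isCompact_Icc.prod isCompact_Icc) ?_
        have hc : Continuous fun q : ℝ × ℝ => Complex.polarCoord.symm q := by
          simp only [Complex.polarCoord_symm_apply]; fun_prop
        refine continuous_fst.continuousOn.smul
          (((moll_contDiff (n := 1)).continuous.comp hc).continuousOn.smul
          (hg.continuousOn.comp hc.continuousOn fun q hq => ?_))
        rw [mem_closedBall_zero_iff, Complex.norm_polarCoord_symm, abs_of_nonneg hq.1.1]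
        exact hq.1.2
      · rintro q ⟨⟨hq1, hq2⟩, hqn⟩
        have : δ < q.1 := by
          by_contra hc
          exact hqn ⟨⟨(le_of_lt hq1), not_lt.1 hc⟩, Ioo_subset_Icc_self hq2⟩
        simp [moll, abs_of_pos (mem_Ioi.1 hq1),
          prof_eq_zero hδ.le this.le]
    rw [setIntegral_prod _ hint]
    refine setIntegral_congr_fun measurableSet_Ioi fun r (hr : 0 < r) => ?_
    simp only [moll, hcov, norm_circleMap_zero, abs_of_pos hr, smul_smul, integral_smul]
    by_cases hrd : δ ≤ r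
    · simp [prof_eq_zero hδ.le hrd]
    have hav : Real.circleAverage g 0 r = g 0 := by
      refine DiffContOnCl.circleAverage (DifferentiableOn.diffContOnCl (hg.mono ?_))
      rw [abs_of_pos hr]
      exact closure_ball_subset_closedBall.trans (closedBall_subset_closedBall (not_le.1 hrd).le)
    rw [Real.circleAverage_def, inv_smul_eq_iff₀ (by positivity)] at hav
    have hper : (fun θ => g (circleMap 0 r θ)).Periodic (2 * π) :=
      (periodic_circleMap 0 r).comp g
    have he := hper.intervalIntegral_add_eq (-π) 0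
    rw [show -π + 2 * π = π by ring, zero_add, hav] at he
    rw [← integral_Ioc_eq_integral_Ioo, ← intervalIntegral.integral_of_le (by linarith [Real.pi_pos]),
      he, smul_smul]
  have h1 := key (fun _ => g 0) (differentiableOn_const _)
  rw [key g hg, ← h1, integral_smul_const, mass]

theorem mollify_holomorphic_eq (hδ : 0 < δ) {b : ℂ → ℂ} {z : ℂ}
    (hb : DifferentiableOn ℂ b (closedBall z δ)) : mollify δ b z = b z := by
  have hg : DifferentiableOn ℂ (fun t => b (z - t)) (closedBall 0 δ) :=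
    hb.comp ((differentiable_id.const_sub z).differentiableOn) fun t ht => by
      simpa [dist_eq_norm] using ht
  rw [mollify, integral_radial hδ hg, smul_smul, inv_mul_cancel₀ (mass_pos hδ).ne', one_smul,
    sub_zero]

/-! ### Conclusion -/

/-- `u_x - i u_y` extends holomorphically over the disc, so `∇u` has a harmonic potential. -/
theorem exists_potential (hT : TestAt K u) (hG : IsGM K u) {p : ℂ} {ρ s : ℝ} {G₁ G₂ : ℂ → ℂ}
    (h₁ : ContDiffOn ℝ 1 G₁ (ball p ρ)) (h₂ : ContDiffOn ℝ 1 G₂ (ball p ρ))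
    (d₁ : ∀ z ∈ ball p ρ, vdiv G₁ z = 0) (d₂ : ∀ z ∈ ball p ρ, vdiv G₂ z = 0)
    (hind : ∀ z ∈ ball p ρ, cross (G₁ z) (G₂ z) ≠ 0)
    (t₁ : IsFluxFree K G₁ p ρ) (t₂ : IsFluxFree K G₂ p ρ) (hs : 0 < s) (hsρ : s < ρ) :
    ∃ w : ℂ → ℝ, (∀ z ∈ ball p s, InnerProductSpace.HarmonicAt w z) ∧
      ∀ z ∈ ball p s \ K, HasFDerivAt w (fderiv ℝ u z) z := by
  obtain ⟨z₀, hz₀⟩ := hG.dense_compl.inter_open_nonempty (ball p s) isOpen_ball ⟨p, mem_ball_self hs⟩
  obtain ⟨e, he, hesub⟩ := Metric.isOpen_iff.1 (isOpen_ball.inter hG.isOpen_compl) z₀ hz₀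
  set δ₀ := min (e / 3) (ρ - s)
  have hδ₀ : 0 < δ₀ := lt_min (by positivity) (by linarith)
  have hδe : δ₀ ≤ e / 3 := min_le_left _ _
  have hδρ : δ₀ ≤ ρ - s := min_le_right _ _
  have hloc := locallyIntegrable_cgrad hG
  have hhol : ∀ δ, 0 < δ → δ ≤ δ₀ → DifferentiableOn ℂ (mollify δ (cgrad u)) (ball p s) := by
    intro δ hδ hδle z hz
    obtain ⟨D, hD, hDe⟩ := mollify_hasFDerivAt hδ.le hloc z
    refine (differentiableAt_complex_iff_differentiableAt_real.2
      ⟨hD.differentiableAt, ?_⟩).differentiableWithinAt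
    rw [hD.fderiv, hDe, hDe, smul_eq_mul]
    obtain ⟨hψ, hψc, hψs, -⟩ := probe hδ.le z
    have hsub : closedBall z δ ⊆ ball p ρ := by
      refine closedBall_subset_ball' ?_
      have := mem_ball.1 hz
      linarith
    have hw := weak_dbar hT hG h₁ h₂ d₁ d₂ hind t₁ t₂ hψ hψc (hψs.trans hsub)
    have hi : ∀ e : ℂ, Integrable fun w => fderiv ℝ (fun w => moll δ (z - w)) w e • cgrad u w :=
      fun e => hloc.integrable_smul_left_of_hasCompactSupport
        (((hψ.fderiv_right (m := 1) (by norm_num)).clm_apply contDiff_const).continuous)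
        (hψc.fderiv_apply (𝕜 := ℝ) e)
    have heq : (fun w => cgrad u w * ((fderiv ℝ (fun w => moll δ (z - w)) w 1 : ℂ) +
        Complex.I * fderiv ℝ (fun w => moll δ (z - w)) w Complex.I)) =
        fun w => fderiv ℝ (fun w => moll δ (z - w)) w 1 • cgrad u w +
          Complex.I * (fderiv ℝ (fun w => moll δ (z - w)) w Complex.I • cgrad u w) := by
      funext w; simp only [Complex.real_smul]; ring
    rw [heq, integral_add (hi 1) ((hi Complex.I).const_mul _), integral_const_mul] at hw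
    simp only [Complex.real_smul] at hw ⊢
    push_cast
    linear_combination ((mass δ)⁻¹ : ℂ) * Complex.I * hw +
      ((mass δ)⁻¹ : ℂ) * (-(∫ w, (fderiv ℝ (fun w => moll δ (z - w)) w Complex.I : ℂ) * cgrad u w)) *
        Complex.I_mul_I
  have hexact : ∀ δ z, 0 < δ → closedBall z δ ⊆ Kᶜ → mollify δ (cgrad u) z = cgrad u z :=
    fun δ z hδ hsub => mollify_holomorphic_eq hδ fun w hw =>
      (differentiableAt_cgrad hG (hsub hw)).differentiableWithinAt
  have hEq : ∀ z ∈ ball p s \ K, mollify δ₀ (cgrad u) z = cgrad u z := by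
    intro z hz
    obtain ⟨e', he', he'sub⟩ := Metric.isOpen_iff.1 hG.isOpen_compl z hz.2
    set δ := min δ₀ (e' / 2)
    have hδ : 0 < δ := lt_min hδ₀ (by positivity)
    have hagree : mollify δ₀ (cgrad u) =ᶠ[𝓝 z₀] mollify δ (cgrad u) := by
      filter_upwards [ball_mem_nhds z₀ hδ₀] with x hx
      have hx' := mem_ball.1 hx
      have hsub : ∀ d ≤ δ₀, closedBall x d ⊆ Kᶜ := fun d hd =>
        (closedBall_subset_ball' (by linarith)).trans (hesub.trans inter_subset_right)
      rw [hexact δ₀ x hδ₀ (hsub δ₀ le_rfl), hexact δ x hδ (hsub δ (min_le_left _ _))]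
    have := ((hhol δ₀ hδ₀ le_rfl).analyticOnNhd isOpen_ball).eqOn_of_preconnected_of_eventuallyEq
      ((hhol δ hδ (min_le_left _ _)).analyticOnNhd isOpen_ball)
      (convex_ball p s).isPreconnected hz₀.1 hagree hz.1
    rw [this]
    exact hexact δ z hδ ((closedBall_subset_ball
      (lt_of_le_of_lt (min_le_right _ _) (by linarith))).trans he'sub)
  obtain ⟨g, hg⟩ := (hhol δ₀ hδ₀ le_rfl).isExactOn_ball
  refine ⟨fun z => (g z).re, fun z hz => ?_, fun z hz => ?_⟩
  · have hga : AnalyticAt ℂ g z :=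
      DifferentiableOn.analyticAt (fun x hx => (hg x hx).differentiableAt.differentiableWithinAt)
        (isOpen_ball.mem_nhds hz)
    exact hga.harmonicAt_re
  · have hd := Complex.reCLM.hasFDerivAt.comp z ((hg z hz.1).hasFDerivAt.restrictScalars ℝ)
    refine hd.congr_fderiv ?_
    refine ContinuousLinearMap.ext fun w => ?_
    rw [clm_apply_eq (fderiv ℝ u z) w]
    simp [hEq z hz, cgrad]

/-- A function on the disc minus `K` with vanishing gradient is constant. -/
theorem const_of_flat (hG : IsGM K u) {p : ℂ} {ρ s : ℝ}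
    {G₁ G₂ : ℂ → ℂ} (h₁ : ContDiffOn ℝ 1 G₁ (ball p ρ)) (h₂ : ContDiffOn ℝ 1 G₂ (ball p ρ))
    (d₁ : ∀ z ∈ ball p ρ, vdiv G₁ z = 0) (d₂ : ∀ z ∈ ball p ρ, vdiv G₂ z = 0)
    (hind : ∀ z ∈ ball p ρ, cross (G₁ z) (G₂ z) ≠ 0)
    (t₁ : IsFluxFree K G₁ p ρ) (t₂ : IsFluxFree K G₂ p ρ) (hsρ : s < ρ)
    {c : ℂ → ℝ} (hcC : ContDiffOn ℝ 1 c (ball p s \ K))
    (hcd : ∀ z ∈ ball p s \ K, HasFDerivAt c (0 : ℂ →L[ℝ] ℝ) z) :
    ∀ x ∈ ball p s \ K, ∀ y ∈ ball p s \ K, c x = c y := by
  have hO : IsOpen (ball p s \ K) := isOpen_ball.sdiff hG.isClosed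
  -- `arctan ∘ c` has vanishing distributional derivative in the disc
  set b : ℂ → ℝ := (ball p s \ K).indicator fun z => Real.arctan (c z) with hbdef
  have hbint : LocallyIntegrable b volume := by
    refine (locallyIntegrable_const (π / 2)).mono ?_ (Eventually.of_forall fun z => ?_)
    · rw [hbdef, aestronglyMeasurable_indicator_iff hO.measurableSet]
      exact (Real.continuous_arctan.comp_continuousOn hcC.continuousOn).aestronglyMeasurable
        hO.measurableSet
    · rw [Real.norm_eq_abs, Real.norm_eq_abs, abs_of_pos (show (0 : ℝ) < π / 2 by positivity)]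
      by_cases hz : z ∈ ball p s \ K
      · rw [hbdef, indicator_of_mem hz]
        exact abs_le.2 ⟨(Real.neg_pi_div_two_lt_arctan _).le, (Real.arctan_lt_pi_div_two _).le⟩
      · rw [hbdef, indicator_of_notMem hz, abs_zero]; positivity
  have hweak : ∀ ψ : ℂ → ℝ, ContDiff ℝ 2 ψ → HasCompactSupport ψ → tsupport ψ ⊆ ball p s →
      ∀ e : ℂ, ∫ z, fderiv ℝ ψ z e • b z = 0 := by
    intro ψ hψ hψc hψs e
    set Ψ : ℂ → ℂ := fun z => ψ z • e
    have hΨs : tsupport Ψ ⊆ tsupport ψ := tsupport_smul_subset_left ψ (fun _ => e)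
    have hft := field_test hG h₁ h₂ d₁ d₂ hind t₁ t₂ isOpen_ball (ball_subset_ball hsρ.le) hcC
      (fun z hz => by simpa [gradSq, (hcd z hz).fderiv] using gradSq_nonneg u z)
      Real.hasDerivAt_arctan Real.contDiff_arctan
      (Ψ := Ψ) (M := π / 2) (N := 1)
      (fun t => abs_le.2 ⟨(Real.neg_pi_div_two_lt_arctan _).le, (Real.arctan_lt_pi_div_two _).le⟩)
      (fun t => by
        rw [abs_of_nonneg (by positivity), div_le_one (by positivity)]
        nlinarith [sq_nonneg t])
      ((hψ.of_le (by norm_num)).smul contDiff_const)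
      (hψc.of_isClosed_subset (isClosed_tsupport _) hΨs) (hΨs.trans hψs)
    rw [← hft.2]
    refine integral_congr_ae ?_
    filter_upwards [ae_notMem hG] with z hz
    have hdψ : HasFDerivAt Ψ ((fderiv ℝ ψ z).smulRight e) z :=
      ((hψ.differentiable (by norm_num)) z).hasFDerivAt.smul_const e
    have hdiv : vdiv Ψ z = fderiv ℝ ψ z e := by
      rw [clm_apply_eq (fderiv ℝ ψ z) e, vdiv, hdψ.fderiv]
      simp
      ring
    by_cases hzs : z ∈ ball p s
    · rw [hbdef, indicator_of_mem (mem_sdiff_of_mem hzs hz), hdiv, (hcd z ⟨hzs, hz⟩).fderiv]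
      simp [mul_comm]
    · have hzn : z ∉ tsupport ψ := fun hc => hzs (hψs hc)
      simp [hdiv, fderiv_of_notMem_tsupport ℝ hzn, show Ψ z = 0 by
        simp [Ψ, image_eq_zero_of_notMem_tsupport hzn]]
  -- hence it is constant
  intro x hx y hy
  have key : ∀ z ∈ ball p s \ K, ∃ e > 0, ball z e ⊆ ball p s ∧
      ∀ d, 0 < d → d < e → mollify d b z = Real.arctan (c z) := by
    intro z hz
    obtain ⟨e, he, hesub⟩ := Metric.isOpen_iff.1 hO z hz
    refine ⟨e, he, hesub.trans sdiff_subset, fun d hd hde => mollify_eq_const hd fun v hv => ?_⟩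
    have hv' : v ∈ ball z e := closedBall_subset_ball hde hv
    rw [hbdef, indicator_of_mem (hesub hv')]
    congr 1
    exact (convex_ball z e).is_const_of_fderivWithin_eq_zero (𝕜 := ℝ)
      (fun q hq => (hcd q (hesub hq)).differentiableAt.differentiableWithinAt)
      (fun q hq => by rw [fderivWithin_of_isOpen isOpen_ball hq, (hcd q (hesub hq)).fderiv])
      hv' (mem_ball_self he)
  obtain ⟨ex, hex, -, kx⟩ := key x hx
  obtain ⟨ey, hey, -, ky⟩ := key y hy
  set m := max (dist x p) (dist y p)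
  have hm : m < s := max_lt (mem_ball.1 hx.1) (mem_ball.1 hy.1)
  set d := min (min ex ey) (s - m) / 2 with hddef
  have hd : 0 < d := by have := lt_min (lt_min hex hey) (sub_pos.2 hm); positivity
  have hdx : d < ex := by
    have := min_le_left (min ex ey) (s - m); have := min_le_left ex ey; linarith
  have hdy : d < ey := by
    have := min_le_left (min ex ey) (s - m); have := min_le_right ex ey; linarith
  have hdm : d < s - m := by have := min_le_right (min ex ey) (s - m); linarith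
  have hxy : mollify d b x = mollify d b y := by
    refine (convex_ball p (s - d)).is_const_of_fderivWithin_eq_zero (𝕜 := ℝ) ?_ ?_
      (mem_ball.2 (by have := le_max_left (dist x p) (dist y p); linarith))
      (mem_ball.2 (by have := le_max_right (dist x p) (dist y p); linarith))
    · intro q _
      obtain ⟨D, hD, -⟩ := mollify_hasFDerivAt hd.le hbint q
      exact hD.differentiableAt.differentiableWithinAt
    · intro q hq
      obtain ⟨D, hD, hDe⟩ := mollify_hasFDerivAt hd.le hbint q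
      rw [fderivWithin_of_isOpen isOpen_ball hq, hD.fderiv]
      refine ContinuousLinearMap.ext fun e => ?_
      obtain ⟨hψ, hψc, hψs, -⟩ := probe hd.le q
      rw [hDe, hweak _ hψ hψc (hψs.trans (closedBall_subset_ball' (by
        have := mem_ball.1 hq; linarith))) e]
      simp
  rw [kx d hd hdx, ky d hd hdy] at hxy
  exact Real.arctan_injective hxy

/-- Off `K`, `u` agrees with the harmonic potential up to one constant. -/
theorem exists_harmonic_extension (hT : TestAt K u) (hG : IsGM K u) {p : ℂ} {ρ s : ℝ}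
    {G₁ G₂ : ℂ → ℂ} (h₁ : ContDiffOn ℝ 1 G₁ (ball p ρ)) (h₂ : ContDiffOn ℝ 1 G₂ (ball p ρ))
    (d₁ : ∀ z ∈ ball p ρ, vdiv G₁ z = 0) (d₂ : ∀ z ∈ ball p ρ, vdiv G₂ z = 0)
    (hind : ∀ z ∈ ball p ρ, cross (G₁ z) (G₂ z) ≠ 0)
    (t₁ : IsFluxFree K G₁ p ρ) (t₂ : IsFluxFree K G₂ p ρ) (hs : 0 < s) (hsρ : s < ρ) :
    ∃ w : ℂ → ℝ, (∀ z ∈ ball p s, InnerProductSpace.HarmonicAt w z) ∧
      ∀ z ∈ ball p s \ K, w z = u z := by
  obtain ⟨w, hw, hwd⟩ := exists_potential hT hG h₁ h₂ d₁ d₂ hind t₁ t₂ hs hsρ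
  set c : ℂ → ℝ := fun z => u z - w z with hcdef
  have hcd : ∀ z ∈ ball p s \ K, HasFDerivAt c (0 : ℂ →L[ℝ] ℝ) z := by
    intro z hz
    have hu : DifferentiableAt ℝ u z :=
      (((hG.contDiffOn 1).contDiffAt (hG.isOpen_compl.mem_nhds hz.2))).differentiableAt one_ne_zero
    simpa using hu.hasFDerivAt.fun_sub (hwd z hz)
  have hcC : ContDiffOn ℝ 1 c (ball p s \ K) := fun z hz =>
    (((hG.contDiffOn 1).contDiffAt (hG.isOpen_compl.mem_nhds hz.2)).sub
      (HarmonicAt.analyticAt (hw z hz.1)).contDiffAt).contDiffWithinAt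
  have hconst := const_of_flat hG h₁ h₂ d₁ d₂ hind t₁ t₂ hsρ hcC hcd
  obtain ⟨z₀, hz₀⟩ := hG.dense_compl.inter_open_nonempty (ball p s) isOpen_ball ⟨p, mem_ball_self hs⟩
  refine ⟨fun z => w z + c z₀, fun z hz => (hw z hz).add ?_, fun z hz => ?_⟩
  · exact InnerProductSpace.harmonicAt_const _
  · rw [hconst z₀ hz₀ z hz, hcdef]; ring

/-- The disc minus `K` lies in one component of `Kᶜ`. -/
theorem one_component (hG : IsGM K u) {p : ℂ} {ρ s : ℝ}
    {G₁ G₂ : ℂ → ℂ} (h₁ : ContDiffOn ℝ 1 G₁ (ball p ρ)) (h₂ : ContDiffOn ℝ 1 G₂ (ball p ρ))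
    (d₁ : ∀ z ∈ ball p ρ, vdiv G₁ z = 0) (d₂ : ∀ z ∈ ball p ρ, vdiv G₂ z = 0)
    (hind : ∀ z ∈ ball p ρ, cross (G₁ z) (G₂ z) ≠ 0)
    (t₁ : IsFluxFree K G₁ p ρ) (t₂ : IsFluxFree K G₂ p ρ) (hsρ : s < ρ) :
    ∀ x ∈ ball p s \ K, ∀ y ∈ ball p s \ K, y ∈ connectedComponentIn Kᶜ x := by
  intro x hx y hy
  classical
  set W := connectedComponentIn Kᶜ x with hW
  set c : ℂ → ℝ := W.indicator fun _ => (1 : ℝ) with hc
  have hev : ∀ z ∈ ball p s \ K, c =ᶠ[𝓝 z] fun _ => c z := by
    intro z hz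
    filter_upwards [hG.isOpen_compl.connectedComponentIn.mem_nhds
      (mem_connectedComponentIn (show z ∈ Kᶜ from hz.2))] with v hv
    have hiff : v ∈ W ↔ z ∈ W := by
      constructor <;> intro h0
      · rw [hW, connectedComponentIn_eq h0, ← connectedComponentIn_eq hv]
        exact mem_connectedComponentIn hz.2
      · rw [hW, connectedComponentIn_eq h0]; exact hv
    by_cases hzW : z ∈ W
    · rw [hc, indicator_of_mem (hiff.2 hzW), indicator_of_mem hzW]
    · rw [hc, indicator_of_notMem (fun h0 => hzW (hiff.1 h0)), indicator_of_notMem hzW]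
  have heq := const_of_flat hG h₁ h₂ d₁ d₂ hind t₁ t₂ hsρ (c := c)
    (fun z hz => (contDiffAt_const.congr_of_eventuallyEq (hev z hz)).contDiffWithinAt)
    (fun z hz => (hasFDerivAt_const (c z) z).congr_of_eventuallyEq (hev z hz)) x hx y hy
  by_contra hyW
  rw [hc, indicator_of_mem (mem_connectedComponentIn (show x ∈ Kᶜ from hx.2)),
    indicator_of_notMem hyW] at heq
  exact one_ne_zero heq

/-- Deleting `K` inside a disc that meets only one component of `Kᶜ` keeps separation. -/
theorem keepsSeparation_sdiff_ball (hG : IsGM K u) {p : ℂ} {s t : ℝ} (hts : t ≤ s)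
    (hone : ∀ x ∈ ball p s \ K, ∀ y ∈ ball p s \ K, y ∈ connectedComponentIn Kᶜ x)
    (c : ℂ) (R : ℝ) : KeepsSeparation K (K \ ball p t) c R := by
  intro x y hx hy hsep heq
  simp only [mem_union, not_or] at hx hy
  have key : ∀ a, a ∉ K → (∀ q ∈ ball p s \ K, q ∉ connectedComponentIn Kᶜ a) →
      connectedComponentIn (K \ ball p t)ᶜ a ⊆ connectedComponentIn Kᶜ a := by
    intro a ha hfar
    have hopen : IsOpen (connectedComponentIn Kᶜ a) := hG.isOpen_compl.connectedComponentIn
    have haL : a ∈ (K \ ball p t)ᶜ := fun h0 => ha h0.1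
    refine isPreconnected_connectedComponentIn.subset_of_closure_inter_subset hopen
      ⟨a, mem_connectedComponentIn haL, mem_connectedComponentIn ha⟩ ?_
    rintro q ⟨hq, hqL⟩
    have hqs : q ∉ ball p s := by
      intro hqs
      obtain ⟨v, hvs, hva⟩ := mem_closure_iff.1 hq _ isOpen_ball hqs
      exact hfar v ⟨hvs, connectedComponentIn_subset _ _ hva⟩ hva
    have hqK : q ∈ Kᶜ := fun hk =>
      connectedComponentIn_subset _ _ hqL ⟨hk, fun hb => hqs (ball_subset_ball hts hb)⟩
    obtain ⟨v, hvq, hva⟩ := mem_closure_iff.1 hq _ hG.isOpen_compl.connectedComponentIn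
      (mem_connectedComponentIn hqK)
    rw [connectedComponentIn_eq hva, ← connectedComponentIn_eq hvq]
    exact mem_connectedComponentIn hqK
  by_cases hX : ∀ q ∈ ball p s \ K, q ∉ connectedComponentIn Kᶜ x
  · have hyx : y ∈ connectedComponentIn (K \ ball p t)ᶜ x :=
      heq ▸ mem_connectedComponentIn (show y ∈ (K \ ball p t)ᶜ from fun h0 => hy.2 h0.1)
    exact hsep (connectedComponentIn_eq (key x hx.2 hX hyx))
  by_cases hY : ∀ q ∈ ball p s \ K, q ∉ connectedComponentIn Kᶜ y
  · have hxy : x ∈ connectedComponentIn (K \ ball p t)ᶜ y :=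
      heq ▸ mem_connectedComponentIn (show x ∈ (K \ ball p t)ᶜ from fun h0 => hx.2 h0.1)
    exact hsep (connectedComponentIn_eq (key y hy.2 hY hxy)).symm
  simp only [not_forall, not_not] at hX hY
  obtain ⟨q, hq, hqx⟩ := hX
  obtain ⟨q', hq', hqy⟩ := hY
  exact hsep (((connectedComponentIn_eq hqx).trans (connectedComponentIn_eq (hone q hq q' hq'))).trans
    (connectedComponentIn_eq hqy).symm)

/-- The comparison with separation assumed is enough to remove `K`. -/
theorem inter_ball_eq_empty {K : Set ℂ} {u : ℂ → ℝ} (hG : IsGM K u)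
    (hR : ∀ (S L : Set ℂ) (v : ℂ → ℝ), IsCompact S → IsClosed L → LocallyLipschitzOn Lᶜ v →
      L \ S = K \ S → (∀ z ∉ S ∪ K, v z = u z) →
      (∀ c R, KeepsSeparation K L c R) → energy K u S ≤ energy L v S)
    (hT : TestAt K u) {p : ℂ} {ρ : ℝ} {X Y : ℂ → ℂ}
    (hX : ContDiffOn ℝ 1 X (ball p ρ)) (hY : ContDiffOn ℝ 1 Y (ball p ρ))
    (dX : ∀ z ∈ ball p ρ, vdiv X z = 0) (dY : ∀ z ∈ ball p ρ, vdiv Y z = 0)
    (hind : ∀ z ∈ ball p ρ, cross (X z) (Y z) ≠ 0)
    (tX : IsFluxFree K X p ρ) (tY : IsFluxFree K Y p ρ) : K ∩ ball p ρ = ∅ := by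
  rw [← not_nonempty_iff_eq_empty]
  rintro ⟨x, hxK, hx⟩
  obtain ⟨t, hxt, htρ⟩ := exists_between (mem_ball.1 hx)
  obtain ⟨s, hts, hsρ⟩ := exists_between htρ
  have ht : 0 < t := lt_of_le_of_lt dist_nonneg hxt
  obtain ⟨w, hw, hwu⟩ := exists_harmonic_extension hT hG hX hY
    dX dY hind tX tY (ht.trans hts) hsρ
  classical
  set v : ℂ → ℝ := (ball p s).piecewise w u
  have hvu : ∀ z ∉ K, v z = u z := fun z hz => by
    by_cases hzs : z ∈ ball p s
    · exact (piecewise_eq_of_mem _ _ _ hzs).trans (hwu z ⟨hzs, hz⟩)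
    · exact piecewise_eq_of_notMem _ _ _ hzs
  have hsub : closedBall p t ⊆ ball p s := closedBall_subset_ball hts
  have hLip : LocallyLipschitzOn (K \ ball p t)ᶜ v := by
    refine locallyLipschitzOn_of_contDiffAt fun z hz => ?_
    by_cases hzs : z ∈ ball p s
    · exact ((HarmonicAt.analyticAt (hw z hzs)).contDiffAt).congr_of_eventuallyEq
        (eventually_of_mem (isOpen_ball.mem_nhds hzs) fun q hq => piecewise_eq_of_mem _ _ _ hq)
    · have hzK : z ∉ K := fun hK => hz ⟨hK, fun hb => hzs (hsub (ball_subset_closedBall hb))⟩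
      exact ((hG.contDiffOn 1).contDiffAt (hG.isOpen_compl.mem_nhds hzK)).congr_of_eventuallyEq
        (eventually_of_mem (hG.isOpen_compl.mem_nhds hzK) fun q hq => hvu q hq)
  have hmin := hR (closedBall p t) (K \ ball p t) v (isCompact_closedBall p t)
    (hG.isClosed.sdiff isOpen_ball) hLip
    (by
      ext z
      simp only [Set.mem_sdiff]
      exact ⟨fun ⟨⟨a, _⟩, b⟩ => ⟨a, b⟩, fun ⟨a, b⟩ => ⟨⟨a, fun hb => b (ball_subset_closedBall hb)⟩, b⟩⟩)
    (fun z hz => hvu z fun hK => hz (Or.inr hK))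
    (keepsSeparation_sdiff_ball hG hts.le (one_component hG hX hY dX dY hind tX tY hsρ))
  have hdir : dirichlet (K \ ball p t) v (closedBall p t) = dirichlet K u (closedBall p t) := by
    unfold dirichlet
    rw [setLIntegral_congr (sdiff_null_ae_eq_self hG.volume_eq_zero),
      setLIntegral_congr (sdiff_null_ae_eq_self (measure_mono_null sdiff_subset hG.volume_eq_zero))]
    refine lintegral_congr_ae (ae_restrict_of_ae ?_)
    filter_upwards [ae_notMem hG] with z hz
    have hev : v =ᶠ[𝓝 z] u := eventually_of_mem (hG.isOpen_compl.mem_nhds hz) fun q hq => hvu q hq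
    simp [gradSq, hev.fderiv_eq]
  have hfin : energy K u (closedBall p t) ≠ ⊤ := by
    refine ne_top_of_le_ne_top (hG.finite p s).ne (add_le_add ?_ ?_)
    · exact lintegral_mono_set (sdiff_subset_sdiff_left hsub)
    · exact measure_mono (inter_subset_inter_right K hsub)
  have hsplit : μH[1] (K ∩ closedBall p t) =
      μH[1] (K ∩ ball p t) + μH[1] ((K \ ball p t) ∩ closedBall p t) := by
    rw [← measure_inter_add_sdiff (K ∩ closedBall p t) (measurableSet_ball (x := p) (ε := t))]
    congr 2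
    · rw [inter_assoc, inter_eq_right.2 ball_subset_closedBall]
    · rw [inter_sdiff_right_comm]
  rw [energy, energy, hdir, hsplit] at hmin
  rw [energy, hsplit] at hfin
  set a := dirichlet K u (closedBall p t)
  set b := μH[1] (K ∩ ball p t)
  set c := μH[1] ((K \ ball p t) ∩ closedBall p t)
  have hac : a + c ≠ ⊤ := ne_top_of_le_ne_top hfin (by gcongr; exact le_add_self)
  have hb0 : b = 0 := by
    have h1 : b + (a + c) ≤ 0 + (a + c) := by rw [zero_add, add_left_comm]; exact hmin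
    exact le_zero_iff.1 ((ENNReal.add_le_add_iff_right hac).1 h1)
  have hpos := hG.reduced x hxK (t - dist x p) (by linarith)
  have hle : μH[1] (K ∩ ball x (t - dist x p)) ≤ b :=
    measure_mono (inter_subset_inter_right K (ball_subset_ball' (by linarith)))
  rw [hb0] at hle
  exact absurd hpos (not_lt.2 hle)

end Removable

open Removable in
/-- E2: two independent flux free fields make `K` removable. -/
theorem removable (hR : ReplaceSpec) (hT : TestSpec) : RemovableSpec := by
  intro K u h p ρ _ X Y hX hY dX dY hind tX tY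
  exact inter_ball_eq_empty h.toIsGM
    (fun S L v a b c d e hsep => hR K u h.toIsGM S L v a b c d e ⟨0, fun R _ => hsep 0 R⟩)
    (hT K u h.toIsGM)
    (hX.of_le (by exact_mod_cast le_top)) (hY.of_le (by exact_mod_cast le_top)) dX dY hind tX tY

end Vale.Agent.P128
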