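import Vale.Agent.P128.Spec
import Vale.Agent.P128.Basic
import Vale.Agent.P128.Key.Potential

/-!
# P128 piece E1: the decomposition `u = h + W` around a compact piece
-/

open MeasureTheory Set Metric Filter Function
open scoped Topology Real RealInnerProductSpace ContDiff

noncomputable section

namespace Vale.Agent.P128.KeyAux

/-- `u = h + W`, `h` harmonic off `K \ C`, `W` harmonic off `C` and decaying. -/
structure Split (K : Set ℂ) (u : ℂ → ℝ) (C : Set ℂ) where
  h : ℂ → ℝ
  W : ℂ → ℝ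
  smooth_h : ContDiffOn ℝ ∞ h (K \ C)ᶜ
  smooth_W : ContDiffOn ℝ ∞ W Cᶜ
  harm_h : ∀ z ∉ K \ C, lap h z = 0
  harm_W : ∀ z ∉ C, lap W z = 0
  split : ∀ z ∉ K, u z = h z + W z
  decay : ∃ A R : ℝ, 0 ≤ A ∧ 0 < R ∧ ∀ z : ℂ, R ≤ ‖z‖ →
    z ∉ C ∧ |W z| ≤ A / ‖z‖ ∧ ‖grad W z‖ ≤ A / ‖z‖ ^ 2
  memL2 : MemLp (grad W) 2
  orth : ∀ ψ : ℂ → ℝ, ContDiff ℝ ∞ ψ → HasCompactSupport ψ →
    Integrable (fun z => gradInner W ψ z) ∧ ∫ z, gradInner W ψ z = 0

theorem contDiffAt_pd {f : ℂ → ℝ} {z : ℂ} (hf : ContDiffAt ℝ 2 f z) (e : ℂ) :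
    DifferentiableAt ℝ (pd e f) z :=
  ((hf.fderiv_right (m := 1) le_rfl).differentiableAt one_ne_zero).clm_apply
    (differentiableAt_const e)

theorem pd_add_nhds {f g : ℂ → ℝ} {z : ℂ} (hf : ContDiffAt ℝ 2 f z) (hg : ContDiffAt ℝ 2 g z)
    (e : ℂ) : pd e (fun y => f y + g y) =ᶠ[𝓝 z] fun y => pd e f y + pd e g y := by
  filter_upwards [hf.eventually (by simp), hg.eventually (by simp)] with y h1 h2
  simp [pd, fderiv_fun_add (h1.differentiableAt two_ne_zero) (h2.differentiableAt two_ne_zero)]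

theorem lap_add {f g : ℂ → ℝ} {z : ℂ} (hf : ContDiffAt ℝ 2 f z) (hg : ContDiffAt ℝ 2 g z) :
    lap (fun y => f y + g y) z = lap f z + lap g z := by
  have h : ∀ e, pd e (pd e fun y => f y + g y) z = pd e (pd e f) z + pd e (pd e g) z := by
    intro e
    rw [pd_congr (pd_add_nhds hf hg e)]
    show fderiv ℝ (fun y => pd e f y + pd e g y) z e = _
    rw [fderiv_fun_add (contDiffAt_pd hf e) (contDiffAt_pd hg e)]
    rfl
  simp [lap, h]; ring

theorem lap_neg (f : ℂ → ℝ) (z : ℂ) : lap (fun y => -f y) z = -lap f z := by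
  have h : ∀ e, pd e (fun y => -f y) = fun y => -pd e f y := fun e => funext fun y => by
    simp [pd, fderiv_fun_neg]
  have h2 : ∀ e, pd e (fun y => -pd e f y) z = -pd e (pd e f) z := fun e => by
    show fderiv ℝ (fun y => -pd e f y) z e = _
    rw [fderiv_fun_neg]; rfl
  simp only [lap, h, h2]; ring

theorem lap_eq_zero_of_harmonicAt {f : ℂ → ℝ} {z : ℂ}
    (hf : InnerProductSpace.HarmonicAt f z) : lap f z = 0 := by
  rw [← lap_eq_laplacian hf.1]; exact hf.2.eq_of_nhds

theorem grad_zero_of_notMem {f : ℂ → ℝ} {z : ℂ} (hz : z ∉ tsupport f) : grad f z = 0 := by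
  rw [grad_congr (notMem_tsupport_iff_eventuallyEq.1 hz)]
  apply Complex.ext <;> simp [grad, pd]

theorem continuousOn_grad {f : ℂ → ℝ} {U : Set ℂ} (hU : IsOpen U) (hf : ContDiffOn ℝ ∞ f U) :
    ContinuousOn (grad f) U := by
  have h : (grad f) = fun z => (pd 1 f z : ℂ) + (pd Complex.I f z : ℂ) * Complex.I :=
    funext fun z => (Complex.mk_eq_add_mul_I _ _)
  rw [h]
  exact (Complex.continuous_ofReal.comp_continuousOn (contDiffOn_pd hU hf 1).continuousOn).add
    ((Complex.continuous_ofReal.comp_continuousOn (contDiffOn_pd hU hf _).continuousOn).mul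
      continuousOn_const)

theorem continuous_grad {f : ℂ → ℝ} (hf : ContDiff ℝ ∞ f) : Continuous (grad f) :=
  continuousOn_univ.1 (continuousOn_grad isOpen_univ hf.contDiffOn)

theorem measurable_grad (f : ℂ → ℝ) : Measurable (grad f) := by
  have h : (grad f) = fun z => (pd 1 f z : ℂ) + (pd Complex.I f z : ℂ) * Complex.I :=
    funext fun z => (Complex.mk_eq_add_mul_I _ _)
  rw [h]
  exact (Complex.measurable_ofReal.comp (measurable_fderiv_apply_const ℝ f 1)).add
    ((Complex.measurable_ofReal.comp (measurable_fderiv_apply_const ℝ f _)).mul_const _)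

theorem integrable_gradInner {U : Set ℂ} {w φ : ℂ → ℝ} (hU : IsOpen U)
    (hw : ContDiffOn ℝ ∞ w U) (hφ : ContDiff ℝ ∞ φ) (hc : HasCompactSupport φ)
    (hs : tsupport φ ⊆ U) : Integrable (fun z => gradInner w φ z) := by
  refine (integrableOn_iff_integrable_of_support_subset (s := tsupport φ) fun z hz => ?_).1
    (ContinuousOn.integrableOn_compact hc ?_)
  · by_contra h
    exact hz (by simp only [gradInner_eq, grad_zero_of_notMem h, inner_zero_right])
  · simp only [gradInner_eq]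
    exact ((continuousOn_grad hU hw).mono hs).inner (continuous_grad hφ).continuousOn

variable {K C : Set ℂ} {u : ℂ → ℝ}

theorem dirichlet_smooth_lt_top {φ : ℂ → ℝ} (hφ : ContDiff ℝ ∞ φ) (hc : HasCompactSupport φ) :
    dirichlet K φ univ < ⊤ := by
  have hi : Integrable (fun z => gradSq φ z) := by
    simpa [gradInner, gradSq, sq] using
      integrable_gradInner isOpen_univ hφ.contDiffOn hφ hc (subset_univ _)
  unfold dirichlet
  refine lt_of_le_of_lt (setLIntegral_le_lintegral _ _) ?_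
  have := hi.hasFiniteIntegral
  rw [hasFiniteIntegral_iff_ofReal (Eventually.of_forall fun z => gradSq_nonneg φ z)] at this
  exact this

theorem test_smooth (hT : TestSpec) (hu : IsGM K u) {ψ : ℂ → ℝ} (hψ : ContDiff ℝ ∞ ψ)
    (hc : HasCompactSupport ψ) :
    Integrable (fun z => gradInner u ψ z) ∧ ∫ z, gradInner u ψ z = 0 := by
  obtain ⟨h1, h2⟩ := hT K u hu ψ (fun z _ => by
      obtain ⟨c, t, ht, hl⟩ := (hψ.of_le (m := 1) (by simp)).locallyLipschitz z
      exact ⟨c, t, nhdsWithin_le_nhds ht, hl⟩) hc (dirichlet_smooth_lt_top hψ hc)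
  have hK : (Kᶜ : Set ℂ) =ᵐ[volume] univ := ae_eq_univ.2 (by
    rw [compl_compl]; exact hu.volume_eq_zero)
  rw [IntegrableOn, Measure.restrict_congr_set hK, Measure.restrict_univ] at h1
  rw [Measure.restrict_congr_set hK, Measure.restrict_univ] at h2
  exact ⟨h1, h2⟩

theorem exists_split (hT : TestSpec) (hu : IsGM K u) (hCK : C ⊆ K) (hC : IsCompact C)
    (hKo : IsClosed (K \ C)) : Nonempty (Split K u C) := by
  have hU : IsOpen (K \ C)ᶜ := hKo.isOpen_compl
  obtain ⟨χ, V, hχ, hχc, hχU, hV, hCV, hχ1, -⟩ :=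
    exists_cutoff hC hU fun z hz h => h.2 hz
  obtain ⟨χ₀, V₀, hχ0, hχ0c, hχ0V, hV0, hCV0, hχ01, -⟩ := exists_cutoff hC hV hCV
  have hVU : V ⊆ (K \ C)ᶜ := fun z hz =>
    hχU (subset_tsupport χ (by simp [mem_support, hχ1 hz]))
  set w : ℂ → ℝ := fun z => χ z * u z with hwdef
  have hKc : IsOpen Kᶜ := hu.isOpen_compl
  have hCc : IsOpen Cᶜ := hC.isClosed.isOpen_compl
  have hCnull : volume C = 0 := measure_mono_null hCK hu.volume_eq_zero
  have husm : ∀ z ∉ K, ContDiffAt ℝ ∞ u z := fun z hz =>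
    (hu.contDiffOn ∞).contDiffAt (hKc.mem_nhds hz)
  have hwsm : ContDiffOn ℝ ∞ w Cᶜ := by
    intro z hz
    by_cases hzK : z ∈ K
    · have h0 : w =ᶠ[𝓝 z] fun _ => 0 :=
        (notMem_tsupport_iff_eventuallyEq.1 fun h => hχU h ⟨hzK, hz⟩).mono fun y hy => by
          simp [hwdef, hy]
      exact (contDiffAt_const.congr_of_eventuallyEq h0).contDiffWithinAt
    · exact (hχ.contDiffAt.mul (husm z hzK)).contDiffWithinAt
  have hwu : ∀ z ∈ V, w =ᶠ[𝓝 z] u := fun z hz => by
    filter_upwards [hV.mem_nhds hz] with y hy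
    simp [hwdef, hχ1 hy]
  set θ : ℂ → ℝ := fun z => 1 - χ₀ z with hθdef
  have hθ : ContDiff ℝ ∞ θ := contDiff_const.sub hχ0
  have hθC : ∀ z ∈ C, θ =ᶠ[𝓝 z] fun _ => 0 := fun z hz => by
    filter_upwards [hV0.mem_nhds (hCV0 hz)] with y hy
    simp [hθdef, hχ01 hy]
  set f : ℂ → ℝ := fun z => θ z * lap w z with hfdef
  have hlapw : ContDiffOn ℝ ∞ (lap w) Cᶜ :=
    (contDiffOn_pd hCc (contDiffOn_pd hCc hwsm 1) 1).add
      (contDiffOn_pd hCc (contDiffOn_pd hCc hwsm _) _)
  have hfsm : ContDiff ℝ ∞ f := contDiff_mul_cutoff hCc hθ hlapw fun z hz h =>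
    notMem_tsupport_iff_eventuallyEq.2 (hθC z h) hz
  have hwz : ∀ z ∉ tsupport χ, w =ᶠ[𝓝 z] fun _ => 0 := fun z hz =>
    (notMem_tsupport_iff_eventuallyEq.1 hz).mono fun y hy => by simp [hwdef, hy]
  have hlapwz : ∀ z ∉ tsupport χ, lap w z = 0 := fun z hz => by
    have z0 : ∀ e, pd e (fun _ : ℂ => (0 : ℝ)) = fun _ => 0 := fun e => funext fun v => by simp [pd]
    rw [lap_congr (hwz z hz)]; simp only [lap, z0, add_zero]
  have hfc : HasCompactSupport f := HasCompactSupport.intro hχc fun z hz => by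
    simp [hfdef, hlapwz z hz]
  have hf_eq : ∀ z ∉ C, f z = lap w z := by
    intro z hz
    by_cases hzV : z ∈ tsupport χ₀
    · have hzK : z ∉ K := fun h => hVU (hχ0V hzV) ⟨h, hz⟩
      have : lap w z = 0 := by
        rw [lap_congr (hwu z (hχ0V hzV))]; exact lap_eq_zero_of_harmonicAt (hu.harmonic z hzK)
      simp [hfdef, this]
    · simp [hfdef, hθdef, image_eq_zero_of_notMem_tsupport hzV]
  -- total charge zero
  have hf0 : ∫ z, f z = 0 := by
    obtain ⟨χ₂, V₂, hχ2, hχ2c, -, hV2, hχV2, hχ21, -⟩ :=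
      exists_cutoff (hχc.isCompact) isOpen_univ (subset_univ _)
    set φ : ℂ → ℝ := fun z => θ z * χ₂ z with hφdef
    have hφ : ContDiff ℝ ∞ φ := hθ.mul hχ2
    have hφs : tsupport φ ⊆ Cᶜ := fun z hz h =>
      notMem_tsupport_iff_eventuallyEq.2 ((hθC z h).mono fun y hy => by simp [hφdef, hy]) hz
    have hg := green hCc hwsm hφ hχ2c.mul_left hφs
    have e1 : ∀ z, φ z * lap w z = f z := by
      intro z
      by_cases hz : z ∈ tsupport χ
      · simp [hφdef, hfdef, hχ21 (hχV2 hz)]
      · simp [hfdef, hlapwz z hz]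
    have e2 : ∀ z, gradInner w φ z = -gradInner u χ₀ z := by
      intro z
      by_cases hz : z ∈ tsupport χ
      · have hφe : φ =ᶠ[𝓝 z] θ := by
          filter_upwards [hV2.mem_nhds (hχV2 hz)] with y hy
          simp [hφdef, hχ21 hy]
        have hdθ : fderiv ℝ φ z = -fderiv ℝ χ₀ z := by
          rw [hφe.fderiv_eq]; exact fderiv_const_sub _
        by_cases hz0 : z ∈ tsupport χ₀
        · simp [gradInner, hdθ, (hwu z (hχ0V hz0)).fderiv_eq]; ring
        · simp [gradInner, hdθ, (notMem_tsupport_iff_eventuallyEq.1 hz0).fderiv_eq]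
      · have h0 : z ∉ tsupport χ₀ := fun h =>
          hz (subset_tsupport χ (by simp [mem_support, hχ1 (hχ0V h)]))
        simp [gradInner, (hwz z hz).fderiv_eq,
          (notMem_tsupport_iff_eventuallyEq.1 h0).fderiv_eq]
    simp only [e1, e2, integral_neg, (test_smooth hT hu hχ0 hχ0c).2] at hg
    linarith
  have hp : ContDiff ℝ ∞ (pot f) := contDiff_pot hfsm hfc
  set W : ℂ → ℝ := fun z => w z + -pot f z with hWdef
  set h : ℂ → ℝ := fun z => (u z + -w z) + pot f z with hhdef
  have hWsm : ContDiffOn ℝ ∞ W Cᶜ := hwsm.add hp.neg.contDiffOn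
  have htwo : ∀ {g : ℂ → ℝ} {z : ℂ}, ContDiffAt ℝ ∞ g z → ContDiffAt ℝ 2 g z :=
    fun hg => hg.of_le (WithTop.coe_le_coe.2 le_top)
  have hhC : ∀ z ∈ C, h =ᶠ[𝓝 z] pot f := fun z hz => by
    filter_upwards [hwu z (hCV hz)] with y hy
    simp [hhdef, hy]
  have hhsm : ContDiffOn ℝ ∞ h (K \ C)ᶜ := by
    intro z hz
    by_cases hzC : z ∈ C
    · exact (hp.contDiffAt.congr_of_eventuallyEq (hhC z hzC)).contDiffWithinAt
    · have hzK : z ∉ K := fun h' => hz ⟨h', hzC⟩
      exact (((husm z hzK).add (hwsm.contDiffAt (hCc.mem_nhds hzC)).neg).add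
        hp.contDiffAt).contDiffWithinAt
  have harmW : ∀ z ∉ C, lap W z = 0 := by
    intro z hz
    rw [hWdef, lap_add (htwo (hwsm.contDiffAt (hCc.mem_nhds hz))) (htwo hp.neg.contDiffAt),
      lap_neg, lap_pot hfsm hfc, hf_eq z hz]
    ring
  have harmh : ∀ z ∉ K \ C, lap h z = 0 := by
    intro z hz
    by_cases hzC : z ∈ C
    · rw [lap_congr (hhC z hzC), lap_pot hfsm hfc]
      simp [hfdef, (hθC z hzC).eq_of_nhds]
    · have hzK : z ∉ K := fun h' => hz ⟨h', hzC⟩
      have hwz' := hwsm.contDiffAt (hCc.mem_nhds hzC)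
      rw [hhdef, lap_add (htwo ((husm z hzK).add hwz'.neg)) (htwo hp.contDiffAt),
        lap_add (htwo (husm z hzK)) (htwo hwz'.neg), lap_neg, lap_pot hfsm hfc, hf_eq z hzC,
        lap_eq_zero_of_harmonicAt (hu.harmonic z hzK)]
      ring
  -- decay
  obtain ⟨A, R, hA, hR, hdec⟩ := pot_decay hfsm hfc hf0
  obtain ⟨R', hR'0, hR'⟩ := (hχc.isCompact.isBounded.union hC.isBounded).subset_closedBall_lt 0 (0:ℂ)
  have hWd : ∀ z : ℂ, max R (R' + 1) ≤ ‖z‖ →
      z ∉ C ∧ |W z| ≤ 2 * A / ‖z‖ ∧ ‖grad W z‖ ≤ 2 * A / ‖z‖ ^ 2 := by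
    intro z hz
    have hnot : z ∉ tsupport χ ∪ C := fun h' => by
      have := hR' h'
      rw [mem_closedBall, dist_zero_right] at this
      linarith [le_max_right R (R' + 1)]
    have hWp : W =ᶠ[𝓝 z] fun y => -pot f y :=
      (hwz z fun h' => hnot (Or.inl h')).mono fun y hy => by simp [hWdef, hy]
    obtain ⟨d1, d2⟩ := hdec z (le_trans (le_max_left _ _) hz)
    refine ⟨fun h' => hnot (Or.inr h'), ?_, ?_⟩
    · rw [hWp.eq_of_nhds, abs_neg]
      exact d1.trans (div_le_div_of_nonneg_right (by linarith) (norm_nonneg z))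
    · have g1 : ∀ e, |pd e W z| ≤ A * ‖e‖ / ‖z‖ ^ 2 := fun e => by
        rw [pd_congr hWp]; simpa [pd, fderiv_fun_neg] using d2 e
      refine (Complex.norm_le_abs_re_add_abs_im _).trans
        ((add_le_add (g1 1) (g1 Complex.I)).trans (le_of_eq ?_))
      simp; ring
  set ρ : ℝ := max R (R' + 1)
  have hρ : 0 < ρ := hR.trans_le (le_max_left _ _)
  have hL2 : MemLp (grad W) 2 := by
    rw [memLp_two_iff_integrable_sq_norm (measurable_grad W).aestronglyMeasurable]
    have hmeas : AEStronglyMeasurable (fun z => ‖grad W z‖ ^ 2) volume :=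
      ((measurable_grad W).norm.pow_const 2).aestronglyMeasurable
    have h1 : IntegrableOn (fun z => ‖grad W z‖ ^ 2) (closedBall 0 ρ \ V) :=
      (((continuousOn_grad hCc hWsm).norm.pow 2).mono fun z hz hzC => hz.2 (hCV hzC)).integrableOn_compact
        ((isCompact_closedBall (0 : ℂ) ρ).diff hV)
    have h2 : IntegrableOn (fun z => ‖grad W z‖ ^ 2) (closedBall 0 ρ ∩ V) := by
      have hpi : IntegrableOn (fun z => 2 * ‖grad (pot f) z‖ ^ 2) (closedBall 0 ρ) :=
        (((continuous_grad hp).norm.pow 2).const_mul 2).continuousOn.integrableOn_compact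
          (isCompact_closedBall 0 ρ)
      have hui : IntegrableOn (fun z => 2 * gradSq u z) (closedBall 0 ρ) := by
        refine Integrable.const_mul ⟨?_, ?_⟩ 2
        · rw [show gradSq u = fun z => ‖grad u z‖ ^ 2 from funext (gradSq_eq u)]
          exact ((measurable_grad u).norm.pow_const 2).aestronglyMeasurable
        · rw [hasFiniteIntegral_iff_ofReal (Eventually.of_forall fun z => gradSq_nonneg u z)]
          refine lt_of_le_of_lt ?_ (hu.dirichlet_lt_top 0 (ρ + 1))
          unfold dirichlet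
          rw [setLIntegral_congr (sdiff_null_ae_eq_self hu.volume_eq_zero)]
          exact lintegral_mono_set (closedBall_subset_ball (by linarith))
      refine ((hui.add hpi).mono_set inter_subset_left).mono' hmeas.restrict ?_
      refine (ae_restrict_iff' ((measurableSet_closedBall).inter hV.measurableSet)).2 ?_
      filter_upwards [measure_eq_zero_iff_ae_notMem.1 hu.volume_eq_zero] with z hzK hz
      have hzC : z ∉ C := fun h' => hzK (hCK h')
      have hg : grad W z = grad u z - grad (pot f) z := by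
        have : W =ᶠ[𝓝 z] fun y => u y + -pot f y :=
          (hwu z hz.2).mono fun y hy => by simp [hWdef, hy]
        rw [grad_congr this]
        have hd1 := (husm z hzK).differentiableAt (by simp)
        have hd2 : DifferentiableAt ℝ (fun y => -pot f y) z :=
          (hp.differentiable (by simp)).neg.differentiableAt
        apply Complex.ext <;>
          simp [grad, pd, fderiv_fun_add hd1 hd2, fderiv_fun_neg] <;> ring
      simp only [Pi.add_apply, gradSq_eq, hg, norm_pow, norm_norm]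
      nlinarith [norm_sub_le (grad u z) (grad (pot f) z), sq_nonneg (‖grad u z‖ - ‖grad (pot f) z‖),
        norm_nonneg (grad u z - grad (pot f) z)]
    have h3 : IntegrableOn (fun z => ‖grad W z‖ ^ 2) (closedBall 0 ρ)ᶜ := by
      have hb : Integrable (fun z : ℂ => (2 * A) ^ 2 * (1 + ρ⁻¹) ^ 4 * (1 + ‖z‖) ^ (-4 : ℝ)) :=
        (integrable_one_add_norm (by rw [Complex.finrank_real_complex]; norm_num)).const_mul _
      refine hb.integrableOn.mono' hmeas.restrict ?_
      refine (ae_restrict_iff' measurableSet_closedBall.compl).2 (Eventually.of_forall fun z hz => ?_)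
      rw [mem_compl_iff, mem_closedBall, dist_zero_right, not_le] at hz
      have hzpos : 0 < ‖z‖ := hρ.trans hz
      obtain ⟨-, -, hgz⟩ := hWd z hz.le
      rw [norm_pow, norm_norm]
      refine (pow_le_pow_left₀ (norm_nonneg _) hgz 2).trans ?_
      rw [show (-4 : ℝ) = -((4 : ℕ) : ℝ) by norm_num, Real.rpow_neg (by positivity),
        Real.rpow_natCast, div_pow, ← pow_mul, mul_assoc]
      refine le_of_eq_of_le (div_eq_mul_inv _ _) (mul_le_mul_of_nonneg_left ?_ (by positivity))
      rw [← div_eq_mul_inv, inv_le_iff_one_le_mul₀ (by positivity), div_mul_eq_mul_div,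
        le_div_iff₀ (by positivity), one_mul, ← mul_pow]
      refine pow_le_pow_left₀ (by positivity) ?_ 4
      have : 1 ≤ ρ⁻¹ * ‖z‖ := by rw [inv_mul_eq_div, one_le_div hρ]; exact hz.le
      linarith
    have := (h1.union h2).union h3
    rw [sdiff_union_inter, union_compl_self, integrableOn_univ] at this
    exact this
  -- orthogonality to gradients
  have horth : ∀ ψ : ℂ → ℝ, ContDiff ℝ ∞ ψ → HasCompactSupport ψ →
      Integrable (fun z => gradInner W ψ z) ∧ ∫ z, gradInner W ψ z = 0 := by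
    intro ψ hψ hψc
    set φ₁ : ℂ → ℝ := fun z => χ₀ z * ψ z with hφ1
    set φ₂ : ℂ → ℝ := fun z => θ z * ψ z with hφ2
    have h1 : ContDiff ℝ ∞ φ₁ := hχ0.mul hψ
    have h1c : HasCompactSupport φ₁ := hχ0c.mul_right
    have h1V : tsupport φ₁ ⊆ V := (tsupport_mul_subset_left).trans hχ0V
    have h2 : ContDiff ℝ ∞ φ₂ := hθ.mul hψ
    have h2c : HasCompactSupport φ₂ := hψc.mul_left
    have h2s : tsupport φ₂ ⊆ Cᶜ := fun z hz h' =>
      notMem_tsupport_iff_eventuallyEq.2 ((hθC z h').mono fun y hy => by simp [hφ2, hy]) hz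
    obtain ⟨i1, j1⟩ := test_smooth hT hu h1 h1c
    have i2 := integrable_gradInner hU hhsm h1 h1c (h1V.trans hVU)
    have j2 := green hU hhsm h1 h1c (h1V.trans hVU)
    have z2 : ∀ z, φ₁ z * lap h z = 0 := fun z => by
      by_cases hz : z ∈ tsupport φ₁
      · simp [harmh z (hVU (h1V hz))]
      · simp [image_eq_zero_of_notMem_tsupport hz]
    simp only [z2, integral_zero, neg_zero] at j2
    have i3 := integrable_gradInner hCc hWsm h2 h2c h2s
    have j3 := green hCc hWsm h2 h2c h2s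
    have z3 : ∀ z, φ₂ z * lap W z = 0 := fun z => by
      by_cases hz : z ∈ tsupport φ₂
      · simp [harmW z (h2s hz)]
      · simp [image_eq_zero_of_notMem_tsupport hz]
    simp only [z3, integral_zero, neg_zero] at j3
    have hae : (fun z => gradInner W ψ z) =ᵐ[volume]
        fun z => (gradInner u φ₁ z - gradInner h φ₁ z) + gradInner W φ₂ z := by
      filter_upwards [measure_eq_zero_iff_ae_notMem.1 hu.volume_eq_zero] with z hzK
      have hzC : z ∉ C := fun h' => hzK (hCK h')
      have hψe : fderiv ℝ ψ z = fderiv ℝ φ₁ z + fderiv ℝ φ₂ z := by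
        have : ψ = fun y => φ₁ y + φ₂ y := funext fun y => by simp [hφ1, hφ2, hθdef]; ring
        rw [this]
        exact fderiv_fun_add (h1.differentiable (by simp)).differentiableAt
          (h2.differentiable (by simp)).differentiableAt
      have hu' : fderiv ℝ u z = fderiv ℝ h z + fderiv ℝ W z := by
        have : u =ᶠ[𝓝 z] fun y => h y + W y := by
          filter_upwards with y
          simp only [hhdef, hWdef]; ring
        rw [this.fderiv_eq]
        have hzKo : z ∈ (K \ C)ᶜ := fun h' => hzK h'.1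
        exact fderiv_fun_add ((hhsm.contDiffAt (hU.mem_nhds hzKo)).differentiableAt (by simp))
          ((hWsm.contDiffAt (hCc.mem_nhds hzC)).differentiableAt (by simp))
      simp only [gradInner, hψe, hu', add_apply]
      ring
    refine ⟨((i1.sub i2).add i3).congr hae.symm, ?_⟩
    have i12 : Integrable (fun z => gradInner u φ₁ z - gradInner h φ₁ z) := i1.sub i2
    rw [integral_congr_ae hae, integral_add i12 i3, integral_sub i1 i2,
      j1, j2, j3]
    ring
  exact ⟨⟨h, W, hhsm, hWsm, harmh, harmW, fun z _ => by simp only [hhdef, hWdef]; ring,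
    ⟨2 * A, ρ, by linarith, hρ, hWd⟩, hL2, horth⟩⟩

end Vale.Agent.P128.KeyAux
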