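import Vale.Agent.P128.Key.Split
import Vale.Agent.P128.Sep.Janiszewski

/-!
# P128 piece E1: moving the piece by a similarity
-/

open MeasureTheory Set Metric Filter Function
open scoped Topology Real RealInnerProductSpace ContDiff Pointwise

noncomputable section

namespace Vale.Agent.P128.KeyAux

variable {K C : Set ℂ} {u : ℂ → ℝ}

/-- The inverse of the similarity `z ↦ a + t z`. -/
def simInv (a : ℂ) (t : ℝ) (z : ℂ) : ℂ := t⁻¹ • (z - a)

/-- Gradient of the transported potential. -/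
def movedGrad (W : ℂ → ℝ) (a : ℂ) (t : ℝ) (z : ℂ) : ℂ := t⁻¹ • grad W (simInv a t z)

theorem norm_gradient_sub_le_weight (r : ℝ) (n : ℕ) (hr : 2 ^ n ≤ 1 + r) (hr0 : 0 ≤ r) :
    (1 + r) ^ (-(3 / 2) : ℝ) ≤ ((2 : ℝ) ^ (-(3 / 2) : ℝ)) ^ n := by
  rw [← Real.rpow_natCast ((2 : ℝ) ^ (-(3 / 2) : ℝ)) n, ← Real.rpow_mul (by norm_num),
    mul_comm, Real.rpow_mul (by norm_num), Real.rpow_natCast]
  exact Real.rpow_le_rpow_of_nonpos (by positivity) hr (by norm_num)

theorem integrable_weight (hG : GrowthSpec) (hu : IsGM K u) :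
    Integrable (fun z => ‖grad u z‖ ^ 2 * (1 + ‖z‖) ^ (-(3 / 2) : ℝ)) := by
  have hnn : ∀ z : ℂ, 0 ≤ ‖grad u z‖ ^ 2 * (1 + ‖z‖) ^ (-(3 / 2) : ℝ) := fun z => by positivity
  refine ⟨(((measurable_grad u).norm.pow_const 2).mul
    ((measurable_const.add measurable_norm).pow_const _)).aestronglyMeasurable, ?_⟩
  rw [hasFiniteIntegral_iff_ofReal (Eventually.of_forall hnn)]
  set q : ℝ := (2 : ℝ) ^ (-(3 / 2) : ℝ) with hq
  have hq0 : 0 ≤ q := by positivity
  have hpt : ∀ z : ℂ, ENNReal.ofReal (‖grad u z‖ ^ 2 * (1 + ‖z‖) ^ (-(3 / 2) : ℝ)) ≤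
      ∑' n : ℕ, (ball (0 : ℂ) (2 ^ (n + 1))).indicator
        (fun z => ENNReal.ofReal (gradSq u z * q ^ n)) z := by
    intro z
    have hex : ∃ n : ℕ, ‖z‖ < 2 ^ (n + 1) := by
      obtain ⟨n, hn⟩ := pow_unbounded_of_one_lt ‖z‖ (show (1 : ℝ) < 2 by norm_num)
      exact ⟨n, hn.trans_le (pow_le_pow_right₀ (by norm_num) (Nat.le_succ n))⟩
    set n := Nat.find hex with hn
    have h1 : ‖z‖ < 2 ^ (n + 1) := Nat.find_spec hex
    have h2 : (2 : ℝ) ^ n ≤ 1 + ‖z‖ := by
      rcases Nat.eq_zero_or_pos n with h0 | h0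
      · simp [h0]
      · obtain ⟨m, hm⟩ : ∃ m, n = m + 1 := ⟨n - 1, by omega⟩
        have := Nat.find_min hex (show m < n by omega)
        rw [hm]; linarith [not_lt.1 this]
    refine le_trans ?_ (ENNReal.le_tsum n)
    rw [indicator_of_mem (by simpa using h1)]
    refine ENNReal.ofReal_le_ofReal ?_
    rw [gradSq_eq]
    exact mul_le_mul_of_nonneg_left (norm_gradient_sub_le_weight _ n h2 (norm_nonneg _)) (sq_nonneg _)
  refine lt_of_le_of_lt (lintegral_mono hpt) ?_
  have hmn : ∀ n : ℕ, Measurable fun z => ENNReal.ofReal (gradSq u z * q ^ n) := fun n => by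
    rw [show gradSq u = fun z => ‖grad u z‖ ^ 2 from funext (gradSq_eq u)]
    exact ENNReal.measurable_ofReal.comp (((measurable_grad u).norm.pow_const 2).mul_const _)
  rw [lintegral_tsum fun n => ((hmn n).indicator measurableSet_ball).aemeasurable]
  have hb : ∀ n : ℕ, ∫⁻ z, (ball (0 : ℂ) (2 ^ (n + 1))).indicator
      (fun z => ENNReal.ofReal (gradSq u z * q ^ n)) z ≤
        ENNReal.ofReal (4 * π * (2 * q) ^ n) := by
    intro n
    rw [lintegral_indicator measurableSet_ball]
    have e1 : ∫⁻ z in ball (0 : ℂ) (2 ^ (n + 1)), ENNReal.ofReal (gradSq u z * q ^ n) =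
        ENNReal.ofReal (q ^ n) * dirichlet K u (ball 0 (2 ^ (n + 1))) := by
      unfold dirichlet
      rw [← lintegral_const_mul' _ _ ENNReal.ofReal_ne_top,
        setLIntegral_congr (sdiff_null_ae_eq_self hu.volume_eq_zero)]
      refine lintegral_congr fun z => ?_
      rw [← ENNReal.ofReal_mul (by positivity), mul_comm]
    rw [e1, ← ENNReal.ofReal_toReal (hu.dirichlet_lt_top 0 (2 ^ (n + 1))).ne,
      ← ENNReal.ofReal_mul (by positivity)]
    refine ENNReal.ofReal_le_ofReal ?_
    obtain ⟨-, hl, hD⟩ := (hG K u hu 0).1 (2 ^ (n + 1)) (by positivity)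
    have hD' : dir K u 0 (2 ^ (n + 1)) ≤ 2 * π * 2 ^ (n + 1) := by linarith
    calc q ^ n * dir K u 0 (2 ^ (n + 1)) ≤ q ^ n * (2 * π * 2 ^ (n + 1)) :=
          mul_le_mul_of_nonneg_left hD' (by positivity)
      _ = 4 * π * (2 * q) ^ n := by ring
  refine lt_of_le_of_lt (ENNReal.tsum_le_tsum hb) ?_
  have hs : Summable fun n => 4 * π * (2 * q) ^ n := by
    refine (summable_geometric_of_lt_one (by positivity) ?_).mul_left _
    have : q < 2⁻¹ := by
      rw [hq, show ((2 : ℝ))⁻¹ = (2 : ℝ) ^ (-1 : ℝ) by rw [Real.rpow_neg_one]]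
      exact Real.rpow_lt_rpow_of_exponent_lt (by norm_num) (by norm_num)
    linarith
  rw [← ENNReal.ofReal_tsum_of_nonneg (fun n => by positivity) hs]
  exact ENNReal.ofReal_lt_top

/-- A square integrable function decaying like `|z|^-2`. -/
def Decays (g : ℂ → ℝ) : Prop :=
  MemLp g 2 ∧ ∃ A R : ℝ, 0 ≤ A ∧ 0 < R ∧ ∀ z : ℂ, R ≤ ‖z‖ → |g z| ≤ A / ‖z‖ ^ 2

theorem integrableOn_gradSq (hu : IsGM K u) (x : ℂ) (R : ℝ) :
    IntegrableOn (fun z => ‖grad u z‖ ^ 2) (ball x R) := by
  refine ⟨((measurable_grad u).norm.pow_const 2).aestronglyMeasurable, ?_⟩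
  rw [hasFiniteIntegral_iff_ofReal (Eventually.of_forall fun z => by positivity)]
  have h := hu.dirichlet_lt_top x R
  unfold dirichlet at h
  rw [setLIntegral_congr (sdiff_null_ae_eq_self hu.volume_eq_zero)] at h
  simpa only [← gradSq_eq] using h

theorem integrable_grad_mul (hG : GrowthSpec) (hu : IsGM K u) {g : ℂ → ℝ} (hg : Decays g) :
    Integrable (fun z => ‖grad u z‖ * |g z|) := by
  obtain ⟨hg2, A, R, hA, hR, hdec⟩ := hg
  have hm : AEStronglyMeasurable (fun z => ‖grad u z‖ * |g z|) volume :=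
    (measurable_grad u).norm.aestronglyMeasurable.mul hg2.aestronglyMeasurable.norm
  have hgi : Integrable (fun z => g z ^ 2) := hg2.integrable_sq
  have h1 : IntegrableOn (fun z => ‖grad u z‖ * |g z|) (ball 0 R) := by
    refine ((integrableOn_gradSq hu 0 R).add hgi.integrableOn).mono' hm.restrict
      (Eventually.of_forall fun z => ?_)
    rw [Real.norm_eq_abs, abs_mul, abs_abs, abs_of_nonneg (norm_nonneg _)]
    simp only [Pi.add_apply]
    nlinarith [sq_nonneg (‖grad u z‖ - |g z|), sq_abs (g z), norm_nonneg (grad u z), abs_nonneg (g z)]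
  have h2 : IntegrableOn (fun z => ‖grad u z‖ * |g z|) (ball 0 R)ᶜ := by
    have hb : Integrable (fun z : ℂ => A * (1 + R⁻¹) ^ 2 *
        (‖grad u z‖ ^ 2 * (1 + ‖z‖) ^ (-(3 / 2) : ℝ) + (1 + ‖z‖) ^ (-(5 / 2) : ℝ))) :=
      ((integrable_weight hG hu).add
        (integrable_one_add_norm (by rw [Complex.finrank_real_complex]; norm_num))).const_mul _
    refine hb.integrableOn.mono' hm.restrict ?_
    refine (ae_restrict_iff' measurableSet_ball.compl).2 (Eventually.of_forall fun z hz => ?_)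
    rw [mem_compl_iff, mem_ball, dist_zero_right, not_lt] at hz
    have hzpos : 0 < ‖z‖ := hR.trans_le hz
    rw [Real.norm_eq_abs, abs_mul, abs_abs, abs_of_nonneg (norm_nonneg _)]
    set p : ℝ := (1 + ‖z‖) ^ (-(3 / 4) : ℝ) with hp
    set s : ℝ := (1 + ‖z‖) ^ (-(5 / 4) : ℝ) with hs
    have e1 : (1 + ‖z‖) ^ (-(3 / 2) : ℝ) = p ^ 2 := by
      rw [hp, ← Real.rpow_natCast, ← Real.rpow_mul (by positivity)]; norm_num
    have e2 : (1 + ‖z‖) ^ (-(5 / 2) : ℝ) = s ^ 2 := by
      rw [hs, ← Real.rpow_natCast, ← Real.rpow_mul (by positivity)]; norm_num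
    have e3 : p * s = ((1 + ‖z‖) ^ 2)⁻¹ := by
      rw [hp, hs, ← Real.rpow_add (by positivity), ← Real.rpow_natCast,
        ← Real.rpow_neg (by positivity)]
      norm_num
    have e4 : |g z| ≤ A * (1 + R⁻¹) ^ 2 * (p * s) := by
      refine (hdec z hz).trans ?_
      rw [e3, mul_assoc, ← div_eq_mul_inv ((1 + R⁻¹) ^ 2), div_eq_mul_inv]
      refine mul_le_mul_of_nonneg_left ?_ hA
      rw [inv_le_iff_one_le_mul₀ (by positivity), div_mul_eq_mul_div, le_div_iff₀ (by positivity),
        one_mul, ← mul_pow]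
      refine pow_le_pow_left₀ (by positivity) ?_ 2
      have : 1 ≤ R⁻¹ * ‖z‖ := by rw [inv_mul_eq_div, one_le_div hR]; exact hz
      linarith
    rw [e1, e2]
    refine (mul_le_mul_of_nonneg_left e4 (norm_nonneg _)).trans ?_
    have hAR : 0 ≤ A * (1 + R⁻¹) ^ 2 := by positivity
    nlinarith [mul_le_mul_of_nonneg_left (two_mul_le_add_sq (‖grad u z‖ * p) s) hAR,
      mul_nonneg hAR (mul_nonneg (norm_nonneg (grad u z))
        (show 0 ≤ p * s by positivity))]
  have := h1.union h2
  rwa [union_compl_self, integrableOn_univ] at this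

theorem Decays.add {f g : ℂ → ℝ} (hf : Decays f) (hg : Decays g) :
    Decays (fun z => f z + g z) := by
  obtain ⟨hf2, A, R, hA, hR, hfd⟩ := hf
  obtain ⟨hg2, B, S, hB, -, hgd⟩ := hg
  refine ⟨hf2.add hg2, A + B, max R S, by linarith, hR.trans_le (le_max_left _ _), fun z hz => ?_⟩
  rw [add_div]
  exact (abs_add_le _ _).trans (add_le_add (hfd z ((le_max_left _ _).trans hz))
    (hgd z ((le_max_right _ _).trans hz)))

theorem decays_grad (S : Split K u C) : Decays (fun z => ‖grad S.W z‖) := by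
  obtain ⟨A, R, hA, hR, h⟩ := S.decay
  exact ⟨S.memL2.norm, A, R, hA, hR, fun z hz => by rw [abs_norm]; exact (h z hz).2.2⟩

theorem decays_moved (S : Split K u C) (a : ℂ) {t : ℝ} (ht : 0 < t) :
    Decays (fun z => ‖movedGrad S.W a t z‖) := by
  obtain ⟨A, R, hA, hR, h⟩ := S.decay
  constructor
  · have hi : Integrable (fun z => ‖grad S.W z‖ ^ 2) :=
      (memLp_two_iff_integrable_sq_norm S.memL2.aestronglyMeasurable).1 S.memL2
    have hi' : Integrable (fun z => ‖movedGrad S.W a t z‖ ^ 2) := by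
      simp only [movedGrad, simInv, norm_smul, mul_pow]
      exact (((hi.comp_smul (inv_ne_zero ht.ne')).comp_sub_right a).const_mul _)
    refine (memLp_two_iff_integrable_sq ?_).2 hi'
    exact ((measurable_grad S.W).comp ((measurable_id.sub_const a).const_smul t⁻¹)
      |>.const_smul t⁻¹).norm.aestronglyMeasurable
  · refine ⟨4 * t * A, max (2 * ‖a‖) (2 * t * R), by positivity,
      lt_of_lt_of_le (by positivity) (le_max_right _ _), fun z hz => ?_⟩
    have hz1 : 2 * ‖a‖ ≤ ‖z‖ := (le_max_left _ _).trans hz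
    have hz2 : 2 * t * R ≤ ‖z‖ := (le_max_right _ _).trans hz
    have hw : ‖z‖ / (2 * t) ≤ ‖simInv a t z‖ := by
      rw [simInv, norm_smul, norm_inv, Real.norm_eq_abs, abs_of_pos ht, inv_mul_eq_div,
        div_le_div_iff₀ (by positivity) ht]
      have := norm_sub_norm_le z a
      nlinarith
    have hzpos : 0 < ‖z‖ := lt_of_lt_of_le (by positivity) hz2
    have hwR : R ≤ ‖simInv a t z‖ := le_trans (by rw [le_div_iff₀ (by positivity)]; linarith) hw
    rw [abs_norm, movedGrad, norm_smul, norm_inv, Real.norm_eq_abs, abs_of_pos ht]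
    refine (mul_le_mul_of_nonneg_left (((h _ hwR).2.2).trans
      (div_le_div_of_nonneg_left hA (by positivity)
        (pow_le_pow_left₀ (by positivity) hw 2))) (by positivity)).trans (le_of_eq ?_)
    field_simp
    ring

theorem locallyLipschitzOn_add {s : Set ℂ} {f g : ℂ → ℝ} (hf : LocallyLipschitzOn s f)
    (hg : LocallyLipschitzOn s g) : LocallyLipschitzOn s (fun z => f z + g z) := by
  intro z hz
  obtain ⟨a, t, ht, hl⟩ := hf hz
  obtain ⟨b, t', ht', hl'⟩ := hg hz
  exact ⟨a + b, t ∩ t', inter_mem ht ht', (hl.mono inter_subset_left).add (hl'.mono inter_subset_right)⟩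

/-- Comparison with the piece moved by `z ↦ a + t z`, plus a test function. -/
theorem variation (hR : ReplaceSpec) (hG : GrowthSpec) (hu : IsGM K u) (hCK : C ⊆ K)
    (hC : IsCompact C) (hKo : IsClosed (K \ C)) (S : Split K u C) (a : ℂ) {t : ℝ} (ht : 0 < t)
    {φ : ℂ → ℝ}
    (hφ : LocallyLipschitzOn (((K \ C) ∪ (fun z => a + t • z) '' C)ᶜ) φ)
    (hφc : HasCompactSupport φ)
    (hφd : dirichlet ((K \ C) ∪ (fun z => a + t • z) '' C) φ univ < ⊤) :
    Integrable (fun z => 2 * ⟪grad u z, movedGrad S.W a t z - grad S.W z + grad φ z⟫ +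
        ‖movedGrad S.W a t z - grad S.W z + grad φ z‖ ^ 2) ∧
      0 ≤ (t - 1) * (μH[1] C).toReal +
        ∫ z, 2 * ⟪grad u z, movedGrad S.W a t z - grad S.W z + grad φ z⟫ +
          ‖movedGrad S.W a t z - grad S.W z + grad φ z‖ ^ 2 := by
  set T : ℂ → ℂ := fun z => a + t • z with hT
  set L : Set ℂ := (K \ C) ∪ T '' C with hL
  have hCTc : IsCompact (T '' C) := hC.image (by fun_prop)
  have hLc : IsClosed L := hKo.union hCTc.isClosed
  have hmCfin : μH[1] C < ⊤ := by
    have := hu.length_lt_top_of_isBounded hC.isBounded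
    rwa [inter_eq_right.2 hCK] at this
  have hmT : μH[1] (T '' C) = ENNReal.ofReal t * μH[1] C := by
    have e : T '' C = (fun z => a + z) '' (t • C) := by
      rw [← image_smul, image_image]
    rw [e, ((isometry_add_left a).hausdorffMeasure_image (Or.inl zero_le_one) _),
      Measure.hausdorffMeasure_smul₀ zero_le_one ht.ne']
    simp [ENNReal.smul_def, ENNReal.ofReal, Real.nnnorm_of_nonneg ht.le, Real.toNNReal, ht.le]
  have hTnull : volume (T '' C) = 0 :=
    volume_eq_zero_of_hausdorff_one_lt_top (by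
      rw [hmT]; exact ENNReal.mul_lt_top ENNReal.ofReal_lt_top hmCfin)
  have hLnull : volume L = 0 :=
    measure_union_null (measure_mono_null sdiff_subset hu.volume_eq_zero) hTnull
  have hinv : ∀ z, z ∉ T '' C → simInv a t z ∉ C := fun z hz h =>
    hz ⟨_, h, by simp [hT, simInv, ht.ne']⟩
  set WT : ℂ → ℝ := fun z => S.W (simInv a t z) with hWT
  have hWTsm : ∀ z ∉ T '' C, ContDiffAt ℝ ∞ WT z := fun z hz => by
    have h1 : ContDiff ℝ ∞ (simInv a t) := (contDiff_id.sub contDiff_const).const_smul t⁻¹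
    exact ((S.smooth_W.contDiffAt (hC.isClosed.isOpen_compl.mem_nhds (hinv z hz))).comp z
      h1.contDiffAt)
  have hWTd : ∀ z ∉ T '' C, ∀ v, fderiv ℝ WT z v = ⟪movedGrad S.W a t z, v⟫ := by
    intro z hz v
    have h1 : HasFDerivAt (simInv a t) (t⁻¹ • ContinuousLinearMap.id ℝ ℂ) z :=
      ((hasFDerivAt_id z).sub_const a).const_smul t⁻¹
    have h2 := ((S.smooth_W.contDiffAt (hC.isClosed.isOpen_compl.mem_nhds
      (hinv z hz))).differentiableAt (by simp)).hasFDerivAt.comp z h1
    have h3 : HasFDerivAt WT _ z := h2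
    rw [h3.fderiv]
    simp [movedGrad, inner_grad]
    ring
  obtain ⟨A, R₀, hA, hR₀, hdec⟩ := S.decay
  obtain ⟨η, V, hη, hηc, hηs, hV, hBV, hη1, hη01⟩ :=
    exists_cutoff (isCompact_closedBall (0 : ℂ) 1) isOpen_ball
      (closedBall_subset_ball (show (1 : ℝ) < 2 by norm_num))
  obtain ⟨c, hc⟩ := (continuous_grad hη).bounded_above_of_compact_support (by
    exact HasCompactSupport.intro hηc fun z hz => grad_zero_of_notMem hz)
  have hc0 : 0 ≤ c := (norm_nonneg _).trans (hc 0)
  obtain ⟨R₁, hR₁0, hR₁⟩ := ((hφc.isCompact.isBounded.union hC.isBounded).union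
    hCTc.isBounded).subset_closedBall_lt 0 (0 : ℂ)
  set ρ : ℝ := R₁ + 2 * ‖a‖ + 2 * t * R₀ + R₀ + 1 with hρ
  have hρ0 : 0 < ρ := by positivity
  -- the far bound on `WT - W`
  have hfar : ∀ z : ℂ, ρ ≤ ‖z‖ → z ∉ tsupport φ ∧ z ∉ C ∧ z ∉ T '' C ∧
      |WT z - S.W z| ≤ (2 * t + 1) * A / ‖z‖ := by
    intro z hz
    have hzpos : 0 < ‖z‖ := hρ0.trans_le hz
    have hn : z ∉ (tsupport φ ∪ C) ∪ T '' C := fun h' => by
      have := hR₁ h'
      rw [mem_closedBall, dist_zero_right] at this
      nlinarith [norm_nonneg a]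
    simp only [mem_union, not_or] at hn
    have hw : ‖z‖ / (2 * t) ≤ ‖simInv a t z‖ := by
      rw [simInv, norm_smul, norm_inv, Real.norm_eq_abs, abs_of_pos ht, inv_mul_eq_div,
        div_le_div_iff₀ (by positivity) ht]
      have := norm_sub_norm_le z a
      have h2a : 2 * ‖a‖ ≤ ‖z‖ := by nlinarith [norm_nonneg a, mul_pos ht hR₀]
      nlinarith [mul_le_mul_of_nonneg_left h2a ht.le]
    have hwR : R₀ ≤ ‖simInv a t z‖ := le_trans (by
      rw [le_div_iff₀ (by positivity)]; nlinarith [norm_nonneg a]) hw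
    refine ⟨hn.1.1, hn.1.2, hn.2, (abs_sub _ _).trans ?_⟩
    rw [add_mul, add_div, one_mul]
    refine add_le_add ((hdec _ hwR).2.1.trans ((div_le_div_of_nonneg_left hA (by positivity)
      hw).trans (le_of_eq (by field_simp)))) (hdec z (by nlinarith [norm_nonneg a])).2.1
  set X : ℂ → ℂ := fun z => movedGrad S.W a t z - grad S.W z + grad φ z with hX
  set Rn : ℕ → ℝ := fun n => ρ + n with hRn
  set ηn : ℕ → ℂ → ℝ := fun n z => η ((Rn n)⁻¹ • z) with hηn
  set Xn : ℕ → ℂ → ℂ := fun n z => ηn n z • (movedGrad S.W a t z - grad S.W z) +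
    (WT z - S.W z) • grad (ηn n) z + grad φ z with hXn
  have hRn0 : ∀ n, 0 < Rn n := fun n => by simp only [hRn]; positivity
  have hηsm : ∀ n, ContDiff ℝ ∞ (ηn n) := fun n => hη.comp (contDiff_id.const_smul _)
  have hη_in : ∀ n z, ‖z‖ ≤ Rn n → ηn n =ᶠ[𝓝 z] fun _ => 1 := by
    intro n z hz
    have hmem : (Rn n)⁻¹ • z ∈ V := hBV (by
      rw [mem_closedBall, dist_zero_right, norm_smul, norm_inv, Real.norm_eq_abs,
        abs_of_pos (hRn0 n), inv_mul_le_one₀ (hRn0 n)]
      exact hz)
    filter_upwards [(continuous_const_smul ((Rn n)⁻¹)).continuousAt.preimage_mem_nhds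
      (hV.mem_nhds hmem)] with y hy
    exact hη1 hy
  have hη_out : ∀ n z, 2 * Rn n ≤ ‖z‖ → ηn n =ᶠ[𝓝 z] fun _ => 0 := by
    intro n z hz
    have hmem : (Rn n)⁻¹ • z ∉ tsupport η := fun h' => by
      have := mem_ball_zero_iff.1 (hηs h')
      rw [norm_smul, norm_inv, Real.norm_eq_abs, abs_of_pos (hRn0 n), inv_mul_lt_iff₀ (hRn0 n)] at this
      linarith
    filter_upwards [(continuous_const_smul ((Rn n)⁻¹)).continuousAt.preimage_mem_nhds
      ((isClosed_tsupport η).isOpen_compl.mem_nhds hmem)] with y hy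
    exact image_eq_zero_of_notMem_tsupport (f := η) hy
  have hηgrad : ∀ n z, ‖grad (ηn n) z‖ ≤ (Rn n)⁻¹ * c := by
    intro n z
    have h1 : HasFDerivAt (fun z : ℂ => (Rn n)⁻¹ • z) ((Rn n)⁻¹ • ContinuousLinearMap.id ℝ ℂ) z :=
      (hasFDerivAt_id z).const_smul (Rn n)⁻¹
    have h2 : HasFDerivAt (ηn n) _ z :=
      ((hη.differentiable (by simp)).differentiableAt.hasFDerivAt).comp z h1
    have : grad (ηn n) z = (Rn n)⁻¹ • grad η ((Rn n)⁻¹ • z) := by
      apply Complex.ext <;> simp [grad, pd, h2.fderiv]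
    rw [this, norm_smul, norm_inv, Real.norm_eq_abs, abs_of_pos (hRn0 n)]
    exact mul_le_mul_of_nonneg_left (hc _) (by have := hRn0 n; positivity)
  -- the competitors
  have hstep : ∀ n, Integrable (fun z => 2 * ⟪grad u z, Xn n z⟫ + ‖Xn n z‖ ^ 2) →
      0 ≤ (t - 1) * (μH[1] C).toReal + ∫ z, 2 * ⟪grad u z, Xn n z⟫ + ‖Xn n z‖ ^ 2 := by
    intro n hint
    set v : ℂ → ℝ := fun z => (S.h z + S.W z + ηn n z * (WT z - S.W z)) + φ z with hv
    have hsmA : ∀ z ∉ L, ContDiffAt ℝ ∞ (fun z => S.h z + S.W z + ηn n z * (WT z - S.W z)) z := by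
      intro z hz
      rw [hL, mem_union, not_or] at hz
      have hh := S.smooth_h.contDiffAt (hKo.isOpen_compl.mem_nhds hz.1)
      by_cases hzC : z ∈ C
      · have hzR : ‖z‖ ≤ Rn n := by
          have := hR₁ (Or.inl (Or.inr hzC))
          rw [mem_closedBall, dist_zero_right] at this
          simp only [hRn, hρ]
          have h2 : 0 ≤ (n : ℝ) := Nat.cast_nonneg n
          nlinarith [norm_nonneg a]
        refine (hh.add (hWTsm z hz.2)).congr_of_eventuallyEq ?_
        filter_upwards [hη_in n z hzR] with y hy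
        simp only [hy]; ring
      · have hW := S.smooth_W.contDiffAt (hC.isClosed.isOpen_compl.mem_nhds hzC)
        exact (hh.add hW).add ((hηsm n).contDiffAt.mul ((hWTsm z hz.2).sub hW))
    have hvL : LocallyLipschitzOn Lᶜ v := locallyLipschitzOn_add (fun z hz => by
      obtain ⟨k, s, hs, hl⟩ :=
        ((hsmA z hz).of_le (m := 1) (by simp)).exists_lipschitzOnWith
      exact ⟨k, s, nhdsWithin_le_nhds hs, hl⟩) hφ
    set Sn : Set ℂ := closedBall 0 (2 * Rn n) with hSn
    have hRnρ : ρ ≤ Rn n := by simp [hRn]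
    have hsubR : ∀ z, z ∈ (tsupport φ ∪ C) ∪ T '' C → z ∈ Sn := fun z hz => by
      have := hR₁ hz
      rw [mem_closedBall, dist_zero_right] at this
      rw [hSn, mem_closedBall, dist_zero_right]
      have : R₁ ≤ ρ := by simp only [hρ]; nlinarith [norm_nonneg a]
      linarith [hRn0 n]
    have hEq : L \ Sn = K \ Sn := by
      ext z; simp only [hL, Set.mem_sdiff, mem_union]
      refine ⟨fun ⟨h1, h2⟩ => ⟨?_, h2⟩, fun ⟨h1, h2⟩ => ⟨Or.inl ⟨h1, fun hc' => h2 (hsubR z
        (Or.inl (Or.inr hc')))⟩, h2⟩⟩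
      rcases h1 with h1 | h1
      · exact h1.1
      · exact absurd (hsubR z (Or.inr h1)) h2
    have hout : ∀ z ∉ Sn ∪ K, v z = u z := by
      intro z hz
      simp only [mem_union, not_or] at hz
      have hzφ : z ∉ tsupport φ := fun h' => hz.1 (hsubR z (Or.inl (Or.inl h')))
      have hzn : 2 * Rn n ≤ ‖z‖ := by
        simp only [hSn, mem_closedBall, dist_zero_right, not_le] at hz
        exact hz.1.le
      simp [hv, S.split z hz.2, (hη_out n z hzn).eq_of_nhds, image_eq_zero_of_notMem_tsupport hzφ]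
    have hE := hR K u hu Sn L v (isCompact_closedBall _ _) hLc hvL hEq hout
      (keepsSeparation_of_piece hC hCK hKo subset_union_left
        (hCTc.isBounded.subset (by rintro z ⟨h1 | h1, h2⟩ <;> [exact absurd h1 h2; exact h1])))
    -- compare the energies
    have hgv : ∀ᵐ z : ℂ, gradSq v z = ‖grad u z + Xn n z‖ ^ 2 := by
      have hvd : ∀ᵐ z : ℂ, z ∈ Lᶜ → DifferentiableAt ℝ φ z := by
        have : ∀ z ∈ Lᶜ, ∃ k, ∃ s ∈ 𝓝 z, LipschitzOnWith k φ s := fun z hz => by
          obtain ⟨k, s, hs, hl⟩ := hφ hz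
          rw [nhdsWithin_eq_nhds.2 (hLc.isOpen_compl.mem_nhds hz)] at hs
          exact ⟨k, s, hs, hl⟩
        choose! k s hs hl using this
        obtain ⟨I, hI, hcount, hcov⟩ := TopologicalSpace.countable_cover_nhdsWithin
          (s := Lᶜ) (f := fun z => interior (s z)) fun z hz => mem_nhdsWithin_of_mem_nhds
            (interior_mem_nhds.2 (hs z hz))
        have hall : ∀ᵐ z : ℂ, ∀ i ∈ I, z ∈ interior (s i) → DifferentiableAt ℝ φ z := by
          refine (ae_ball_iff hcount).2 fun i hi => ?_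
          filter_upwards [(hl i (hI hi)).ae_differentiableWithinAt_of_mem (μ := volume)] with z hz hzi
          exact (hz (interior_subset hzi)).differentiableAt (mem_interior_iff_mem_nhds.1 hzi)
        filter_upwards [hall] with z hz hzL
        obtain ⟨i, hi, hzi⟩ := mem_iUnion₂.1 (hcov hzL)
        exact hz i hi hzi
      filter_upwards [hvd, measure_eq_zero_iff_ae_notMem.1 hLnull,
        measure_eq_zero_iff_ae_notMem.1 hu.volume_eq_zero] with z hd hzL hzK
      have hzL' := hzL
      rw [hL, mem_union, not_or] at hzL'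
      have hzC : z ∉ C := fun h' => hzK (hCK h')
      have hW := (S.smooth_W.contDiffAt (hC.isClosed.isOpen_compl.mem_nhds hzC)).differentiableAt
        (by simp : (∞ : WithTop ℕ∞) ≠ 0)
      have hWT' := (hWTsm z hzL'.2).differentiableAt (by simp : (∞ : WithTop ℕ∞) ≠ 0)
      have huv : v =ᶠ[𝓝 z] fun y => u y + ηn n y * (WT y - S.W y) + φ y := by
        filter_upwards [hu.isOpen_compl.mem_nhds hzK] with y hy
        simp [hv, S.split y hy]
      have hud := ((hu.contDiffOn ∞).contDiffAt (hu.isOpen_compl.mem_nhds hzK)).differentiableAt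
        (by simp : (∞ : WithTop ℕ∞) ≠ 0)
      have hder : HasFDerivAt (fun y => u y + ηn n y * (WT y - S.W y) + φ y) _ z :=
        (hud.hasFDerivAt.add (((hηsm n).differentiable (by simp)).differentiableAt.hasFDerivAt.mul
          (hWT'.hasFDerivAt.sub hW.hasFDerivAt))).add (hd hzL).hasFDerivAt
      rw [gradSq_eq, grad_congr huv]
      congr 2
      apply Complex.ext <;>
        simp [grad, pd, hder.fderiv, hXn, hWTd z hzL'.2, Complex.inner] <;> ring
    have hball : Sn ⊆ ball (0 : ℂ) (2 * Rn n + 1) := closedBall_subset_ball (by linarith)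
    have hiu : IntegrableOn (fun z => ‖grad u z‖ ^ 2) Sn :=
      (integrableOn_gradSq hu 0 _).mono_set hball
    have hsum : ∀ z : ℂ, ‖grad u z + Xn n z‖ ^ 2 =
        ‖grad u z‖ ^ 2 + (2 * ⟪grad u z, Xn n z⟫ + ‖Xn n z‖ ^ 2) := fun z => by
      rw [norm_add_sq_real]; ring
    have hiv : IntegrableOn (fun z => ‖grad u z + Xn n z‖ ^ 2) Sn :=
      (hiu.add hint.integrableOn).congr (Eventually.of_forall fun z => (hsum z).symm)
    have d1 : dirichlet K u Sn = ENNReal.ofReal (∫ z in Sn, ‖grad u z‖ ^ 2) := by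
      rw [ofReal_integral_eq_lintegral_ofReal hiu (Eventually.of_forall fun z => by positivity),
        dirichlet, setLIntegral_congr (sdiff_null_ae_eq_self hu.volume_eq_zero)]
      simp only [gradSq_eq]
    have d2 : dirichlet L v Sn = ENNReal.ofReal (∫ z in Sn, ‖grad u z + Xn n z‖ ^ 2) := by
      rw [ofReal_integral_eq_lintegral_ofReal hiv (Eventually.of_forall fun z => by positivity),
        dirichlet, setLIntegral_congr (sdiff_null_ae_eq_self hLnull)]
      exact lintegral_congr_ae ((ae_restrict_of_ae hgv).mono fun z hz => by simp only [hz])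
    have hKS : μH[1] (K ∩ Sn) = μH[1] ((K \ C) ∩ Sn) + μH[1] C := by
      rw [← measure_union (disjoint_left.2 fun z hz hc' => hz.1.2 hc') hC.isClosed.measurableSet]
      congr 1
      ext z
      constructor
      · rintro ⟨h1, h2⟩
        by_cases hzC : z ∈ C
        · exact Or.inr hzC
        · exact Or.inl ⟨⟨h1, hzC⟩, h2⟩
      · rintro (⟨⟨h1, -⟩, h2⟩ | h1)
        · exact ⟨h1, h2⟩
        · exact ⟨hCK h1, hsubR z (Or.inl (Or.inr h1))⟩
    have hLS : μH[1] (L ∩ Sn) ≤ μH[1] ((K \ C) ∩ Sn) + μH[1] (T '' C) := by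
      rw [hL, union_inter_distrib_right]
      exact (measure_union_le _ _).trans (add_le_add le_rfl (measure_mono inter_subset_left))
    have hfinKo : μH[1] ((K \ C) ∩ Sn) ≠ ⊤ := ne_top_of_le_ne_top
      (hu.length_lt_top_of_isBounded (S := Sn) Metric.isBounded_closedBall).ne
      (measure_mono (inter_subset_inter_left _ sdiff_subset))
    unfold energy at hE
    rw [d1, d2, hKS] at hE
    have hE' := hE.trans (add_le_add le_rfl hLS)
    rw [hmT] at hE'
    have hreal := (ENNReal.toReal_le_toReal (by finiteness) (by finiteness)).2 hE'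
    rw [ENNReal.toReal_add ENNReal.ofReal_ne_top (by finiteness),
      ENNReal.toReal_add ENNReal.ofReal_ne_top (by finiteness),
      ENNReal.toReal_add hfinKo hmCfin.ne, ENNReal.toReal_add hfinKo (by finiteness),
      ENNReal.toReal_mul, ENNReal.toReal_ofReal ht.le,
      ENNReal.toReal_ofReal (integral_nonneg fun z => by positivity),
      ENNReal.toReal_ofReal (integral_nonneg fun z => by positivity)] at hreal
    have hout0 : ∀ z ∉ Sn, 2 * ⟪grad u z, Xn n z⟫ + ‖Xn n z‖ ^ 2 = 0 := by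
      intro z hz
      have hzn : 2 * Rn n ≤ ‖z‖ := by
        simp only [hSn, mem_closedBall, dist_zero_right, not_le] at hz
        exact hz.le
      have : Xn n z = 0 := by
        have hg : grad (ηn n) z = 0 := by
          rw [grad_congr (hη_out n z hzn)]; apply Complex.ext <;> simp [grad, pd]
        simp [hXn, (hη_out n z hzn).eq_of_nhds, hg,
          grad_zero_of_notMem (fun h' => hz (hsubR z (Or.inl (Or.inl h'))))]
      simp [this]
    have hsplit : ∫ z in Sn, ‖grad u z + Xn n z‖ ^ 2 = (∫ z in Sn, ‖grad u z‖ ^ 2) +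
        ∫ z, 2 * ⟪grad u z, Xn n z⟫ + ‖Xn n z‖ ^ 2 := by
      rw [← setIntegral_eq_integral_of_forall_compl_eq_zero hout0, ← integral_add hiu hint.integrableOn]
      simp only [hsum]
    rw [hsplit] at hreal
    linarith
  -- domination
  set B : ℂ → ℝ := fun z => (closedBall (0 : ℂ) ρ)ᶜ.indicator
    (fun z => (1 + ρ⁻¹) ^ 2 * (2 * c * ((2 * t + 1) * A)) * (1 + ‖z‖) ^ (-2 : ℝ)) z with hB
  have hBdec : Decays B := by
    refine ⟨?_, (1 + ρ⁻¹) ^ 2 * (2 * c * ((2 * t + 1) * A)), 1, by positivity, one_pos, fun z hz => ?_⟩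
    · refine MemLp.indicator measurableSet_closedBall.compl ?_
      refine (memLp_two_iff_integrable_sq (Continuous.aestronglyMeasurable ?_)).2 ?_
      · exact continuous_const.mul ((continuous_const.add continuous_norm).rpow_const
          fun z => Or.inl (ne_of_gt (show (0 : ℝ) < 1 + ‖z‖ by positivity)))
      · have hi : Integrable (fun z : ℂ => ((1 + ρ⁻¹) ^ 2 * (2 * c * ((2 * t + 1) * A))) ^ 2 *
            (1 + ‖z‖) ^ (-4 : ℝ)) :=
          (integrable_one_add_norm (by rw [Complex.finrank_real_complex]; norm_num)).const_mul _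
        refine hi.congr (Eventually.of_forall fun z => ?_)
        simp only [mul_pow]
        rw [← Real.rpow_natCast ((1 + ‖z‖) ^ (-2 : ℝ)), ← Real.rpow_mul (by positivity)]
        norm_num
    · simp only [hB]
      by_cases hzm : z ∈ (closedBall (0 : ℂ) ρ)ᶜ
      · rw [indicator_of_mem hzm, abs_of_nonneg (by positivity), div_eq_mul_inv]
        refine mul_le_mul_of_nonneg_left ?_ (by positivity)
        rw [show (-2 : ℝ) = -((2 : ℕ) : ℝ) by norm_num, Real.rpow_neg (by positivity),
          Real.rpow_natCast]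
        exact inv_anti₀ (by positivity) (pow_le_pow_left₀ (by positivity) (by linarith) 2)
      · rw [indicator_of_notMem hzm, abs_zero]; positivity
  have hφL2 : Decays (fun z => ‖grad φ z‖) := by
    refine ⟨?_, 0, R₁ + 1, le_rfl, by linarith, fun z hz => ?_⟩
    · rw [memLp_two_iff_integrable_sq (measurable_grad φ).norm.aestronglyMeasurable]
      refine ⟨((measurable_grad φ).norm.pow_const 2).aestronglyMeasurable, ?_⟩
      rw [hasFiniteIntegral_iff_ofReal (Eventually.of_forall fun z => by positivity)]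
      unfold dirichlet at hφd
      rw [setLIntegral_congr (sdiff_null_ae_eq_self hLnull), setLIntegral_univ] at hφd
      simpa only [← gradSq_eq] using hφd
    · have : z ∉ tsupport φ := fun h' => by
        have := hR₁ (Or.inl (Or.inl h'))
        rw [mem_closedBall, dist_zero_right] at this
        linarith
      simp [grad_zero_of_notMem this]
  set G : ℂ → ℝ := fun z => ((‖movedGrad S.W a t z‖ + ‖grad S.W z‖) + B z) + ‖grad φ z‖ with hGdef
  have hGdec : Decays G := (((decays_moved S a ht).add (decays_grad S)).add hBdec).add hφL2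
  have hBnn : ∀ z, 0 ≤ B z := fun z => indicator_nonneg (fun z _ => by positivity) z
  have hbound : ∀ n z, ‖Xn n z‖ ≤ G z := by
    intro n z
    simp only [hXn, hGdef]
    refine (norm_add_le _ _).trans (add_le_add ((norm_add_le _ _).trans (add_le_add ?_ ?_)) le_rfl)
    · rw [norm_smul, Real.norm_eq_abs, abs_of_nonneg (hη01 _).1]
      refine (mul_le_of_le_one_left (norm_nonneg _) (hη01 _).2).trans (norm_sub_le _ _)
    · by_cases hzR : ‖z‖ ≤ Rn n
      · have : grad (ηn n) z = 0 := by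
          rw [grad_congr (hη_in n z hzR)]; apply Complex.ext <;> simp [grad, pd]
        simp [this, hBnn z]
      · by_cases hzR2 : 2 * Rn n ≤ ‖z‖
        · have : grad (ηn n) z = 0 := by
            rw [grad_congr (hη_out n z hzR2)]; apply Complex.ext <;> simp [grad, pd]
          simp [this, hBnn z]
        · rw [not_le] at hzR hzR2
          have hρz : ρ < ‖z‖ := lt_of_le_of_lt (by simp [hRn]) hzR
          have hzpos : 0 < ‖z‖ := hρ0.trans hρz
          rw [norm_smul, Real.norm_eq_abs]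
          refine (mul_le_mul (hfar z hρz.le).2.2.2 (hηgrad n z) (norm_nonneg _) (by positivity)).trans ?_
          simp only [hB]
          rw [indicator_of_mem (show z ∈ (closedBall (0 : ℂ) ρ)ᶜ by simpa using hρz),
            show (-2 : ℝ) = -((2 : ℕ) : ℝ) by norm_num, Real.rpow_neg (by positivity), Real.rpow_natCast]
          have h1 : (Rn n)⁻¹ ≤ 2 / ‖z‖ := by
            rw [inv_eq_one_div, div_le_div_iff₀ (hRn0 n) hzpos]; linarith
          refine (mul_le_mul_of_nonneg_left (mul_le_mul_of_nonneg_right h1 hc0) (by positivity)).trans ?_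
          have h2 : 1 + ‖z‖ ≤ (1 + ρ⁻¹) * ‖z‖ := by
            have : 1 ≤ ρ⁻¹ * ‖z‖ := by rw [inv_mul_eq_div, one_le_div hρ0]; exact hρz.le
            linarith
          have h3 : (‖z‖ ^ 2)⁻¹ ≤ (1 + ρ⁻¹) ^ 2 * ((1 + ‖z‖) ^ 2)⁻¹ := by
            rw [← div_eq_mul_inv, inv_eq_one_div, div_le_div_iff₀ (by positivity) (by positivity),
              one_mul, ← mul_pow]
            exact pow_le_pow_left₀ (by positivity) h2 2
          calc (2 * t + 1) * A / ‖z‖ * (2 / ‖z‖ * c)
              = (2 * c * ((2 * t + 1) * A)) * (‖z‖ ^ 2)⁻¹ := by field_simp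
            _ ≤ (2 * c * ((2 * t + 1) * A)) * ((1 + ρ⁻¹) ^ 2 * ((1 + ‖z‖) ^ 2)⁻¹) :=
              mul_le_mul_of_nonneg_left h3 (by positivity)
            _ = _ := by ring
  have hGi : Integrable (fun z => 2 * (‖grad u z‖ * |G z|) + G z ^ 2) :=
    ((integrable_grad_mul hG hu hGdec).const_mul 2).add hGdec.1.integrable_sq
  have hdom : ∀ (Y : ℂ → ℂ) (z : ℂ), ‖Y z‖ ≤ G z →
      ‖2 * ⟪grad u z, Y z⟫ + ‖Y z‖ ^ 2‖ ≤ 2 * (‖grad u z‖ * |G z|) + G z ^ 2 := by
    intro Y z hY
    have hG0 : 0 ≤ G z := (norm_nonneg _).trans hY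
    refine (norm_add_le _ _).trans (add_le_add ?_ ?_)
    · rw [norm_mul, Real.norm_two, Real.norm_eq_abs, abs_of_nonneg hG0]
      exact mul_le_mul_of_nonneg_left ((abs_real_inner_le_norm _ _).trans
        (mul_le_mul_of_nonneg_left hY (norm_nonneg _))) zero_le_two
    · rw [norm_pow, norm_norm]; exact pow_le_pow_left₀ (norm_nonneg _) hY 2
  have hmeasX : ∀ (Y : ℂ → ℂ), Measurable Y →
      AEStronglyMeasurable (fun z => 2 * ⟪grad u z, Y z⟫ + ‖Y z‖ ^ 2) volume := fun Y hY =>
    (((measurable_grad u).inner hY).const_mul 2 |>.add (hY.norm.pow_const 2)).aestronglyMeasurable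
  have hmW : Measurable (movedGrad S.W a t) :=
    ((measurable_grad S.W).comp ((measurable_id.sub_const a).const_smul t⁻¹)).const_smul t⁻¹
  have hmXn : ∀ n, AEStronglyMeasurable (fun z => 2 * ⟪grad u z, Xn n z⟫ + ‖Xn n z‖ ^ 2) volume := by
    intro n
    have hWm : AEMeasurable (fun z => WT z - S.W z) volume := by
      have hT : ContinuousOn (fun z => WT z - S.W z) ((T '' C) ∪ C)ᶜ := fun z hz => by
        rw [mem_compl_iff, mem_union, not_or] at hz
        exact (((hWTsm z hz.1).continuousAt).sub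
          (S.smooth_W.contDiffAt (hC.isClosed.isOpen_compl.mem_nhds hz.2)).continuousAt).continuousWithinAt
      have hn : volume ((T '' C) ∪ C) = 0 :=
        measure_union_null hTnull (measure_mono_null hCK hu.volume_eq_zero)
      have := hT.aemeasurable (μ := volume) ((hCTc.union hC).isClosed.isOpen_compl.measurableSet)
      rwa [Measure.restrict_congr_set (ae_eq_univ.2 (by rwa [compl_compl])), Measure.restrict_univ] at this
    have hX : AEMeasurable (Xn n) volume :=
      ((((hηsm n).continuous.measurable).smul (hmW.sub (measurable_grad S.W))).aemeasurable.add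
        (hWm.smul (measurable_grad (ηn n)).aemeasurable)).add (measurable_grad φ).aemeasurable
    exact (((measurable_grad u).aemeasurable.inner hX).const_mul 2 |>.add
      (hX.norm.pow_const 2)).aestronglyMeasurable
  have hev : ∀ z, ∀ᶠ n in atTop, Xn n z = X z := by
    intro z
    filter_upwards [eventually_ge_atTop ⌈‖z‖⌉₊] with n hn
    have hz : ‖z‖ ≤ Rn n := by
      simp only [hRn]
      have := (Nat.le_ceil ‖z‖).trans (Nat.cast_le.2 hn)
      linarith
    have hg : grad (ηn n) z = 0 := by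
      rw [grad_congr (hη_in n z hz)]; apply Complex.ext <;> simp [grad, pd]
    simp [hXn, hX, (hη_in n z hz).eq_of_nhds, hg]
  have hXb : ∀ z, ‖X z‖ ≤ G z := fun z => by
    obtain ⟨n, hn⟩ := (hev z).exists
    rw [← hn]; exact hbound n z
  have hXi : Integrable (fun z => 2 * ⟪grad u z, X z⟫ + ‖X z‖ ^ 2) :=
    hGi.mono' (hmeasX X ((hmW.sub (measurable_grad S.W)).add (measurable_grad φ)))
      (Eventually.of_forall fun z => hdom X z (hXb z))
  refine ⟨hXi, ?_⟩
  have hlim : Tendsto (fun n => ∫ z, 2 * ⟪grad u z, Xn n z⟫ + ‖Xn n z‖ ^ 2) atTop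
      (𝓝 (∫ z, 2 * ⟪grad u z, X z⟫ + ‖X z‖ ^ 2)) :=
    tendsto_integral_of_dominated_convergence _ hmXn hGi
      (fun n => Eventually.of_forall fun z => hdom (Xn n) z (hbound n z))
      (Eventually.of_forall fun z => tendsto_const_nhds.congr' ((hev z).mono fun n hn => by simp only [hn]))
  exact ge_of_tendsto' (hlim.const_add ((t - 1) * (μH[1] C).toReal)) fun n =>
    hstep n (hGi.mono' (hmXn n) (Eventually.of_forall fun z => hdom (Xn n) z (hbound n z)))

end Vale.Agent.P128.KeyAux
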