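import Vale.Agent.P128.Key.Variation

/-!
# P128 piece E1: the mean zero argument and the translated Euler-Lagrange equation
-/

open MeasureTheory Set Metric Filter Function InnerProductSpace
open scoped Topology Real RealInnerProductSpace ContDiff Pointwise

noncomputable section

namespace Vale.Agent.P128.KeyAux

variable {K C : Set ℂ} {u : ℂ → ℝ}

/-- Complex derivative of a potential. -/
def cgrad (W : ℂ → ℝ) (z : ℂ) : ℂ := (pd 1 W z : ℂ) - Complex.I * (pd Complex.I W z : ℂ)

theorem grad_eq_conj (W : ℂ → ℝ) : grad W = fun z => (starRingEnd ℂ) (cgrad W z) := by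
  funext z
  apply Complex.ext <;> simp [grad, cgrad]

theorem differentiableAt_cgrad (S : Split K u C) (hC : IsClosed C) {z : ℂ} (hz : z ∉ C) :
    DifferentiableAt ℂ (cgrad S.W) z := by
  have h2 : ∀ y ∉ C, ContDiffAt ℝ 2 S.W y := fun y hy =>
    (S.smooth_W.contDiffAt (hC.isOpen_compl.mem_nhds hy)).of_le (WithTop.coe_le_coe.2 le_top)
  have hh : HarmonicAt S.W z := by
    refine ⟨h2 z hz, ?_⟩
    filter_upwards [hC.isOpen_compl.mem_nhds hz] with y hy
    rw [lap_eq_laplacian (h2 y hy)]
    exact S.harm_W y hy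
  exact HarmonicAt.differentiableAt_complex_partial hh

theorem hasFDerivAt_grad (S : Split K u C) (hC : IsClosed C) {z : ℂ} (hz : z ∉ C) :
    ∃ L : ℂ →L[ℝ] ℂ, HasFDerivAt (grad S.W) L z ∧
      ∀ v, L v = (starRingEnd ℂ) (deriv (cgrad S.W) z * v) := by
  have h := ((differentiableAt_cgrad S hC hz).hasDerivAt.hasFDerivAt).restrictScalars ℝ
  refine ⟨_, by rw [grad_eq_conj]; exact Complex.conjCLE.hasFDerivAt.comp z h, fun v => ?_⟩
  simp [mul_comm]

theorem circle_mean (S : Split K u C) (hC : IsClosed C) {z : ℂ} {r : ℝ} (hr : 0 ≤ r)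
    (hz : closedBall z r ⊆ Cᶜ) :
    ∫ θ in 0..2 * π, (grad S.W (circleMap z r θ) - grad S.W z) = 0 := by
  have hd : DifferentiableOn ℂ (cgrad S.W) (closedBall z |r|) := fun y hy =>
    (differentiableAt_cgrad S hC (hz (by rwa [abs_of_nonneg hr] at hy))).differentiableWithinAt
  have h1 := DiffContOnCl.circleAverage (f := cgrad S.W) (c := z) (R := r)
    ((hd.mono (closure_ball_subset_closedBall)).diffContOnCl)
  rw [Real.circleAverage_def, inv_smul_eq_iff₀ (by positivity)] at h1
  have hcont : Continuous fun θ => cgrad S.W (circleMap z r θ) := by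
    refine hd.continuousOn.comp_continuous (continuous_circleMap _ _) fun θ => ?_
    exact sphere_subset_closedBall (circleMap_mem_sphere' z r θ)
  have h2 : ∫ θ in 0..2 * π, (cgrad S.W (circleMap z r θ) - cgrad S.W z) = 0 := by
    rw [intervalIntegral.integral_sub (hcont.intervalIntegrable _ _) intervalIntegrable_const, h1,
      intervalIntegral.integral_const, sub_zero, sub_self]
  have hci : IntervalIntegrable (fun θ => cgrad S.W (circleMap z r θ) - cgrad S.W z) volume 0 (2 * π) :=
    (hcont.sub continuous_const).intervalIntegrable _ _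
  have h3 := (Complex.conjCLE : ℂ →L[ℝ] ℂ).intervalIntegral_comp_comm hci
  rw [h2, map_zero] at h3
  rw [← h3, grad_eq_conj]
  simp

theorem ae_grad_split (hu : IsGM K u) (hC : IsClosed C) (hCK : C ⊆ K)
    (hKo : IsClosed (K \ C)) (S : Split K u C) :
    ∀ᵐ z : ℂ, grad u z = grad S.h z + grad S.W z := by
  filter_upwards [measure_eq_zero_iff_ae_notMem.1 hu.volume_eq_zero] with z hz
  have he : u =ᶠ[𝓝 z] fun y => S.h y + S.W y :=
    eventually_of_mem (hu.isOpen_compl.mem_nhds hz) S.split
  have hz1 : z ∉ K \ C := fun h => hz h.1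
  have hz2 : z ∉ C := fun h => hz (hCK h)
  have d1 := (S.smooth_h.contDiffAt (hKo.isOpen_compl.mem_nhds hz1)).differentiableAt (by simp)
  have d2 := (S.smooth_W.contDiffAt (hC.isOpen_compl.mem_nhds hz2)).differentiableAt (by simp)
  rw [grad_congr he]
  apply Complex.ext <;> simp [grad, pd, fderiv_fun_add d1 d2]

theorem movedGrad_one (W : ℂ → ℝ) (a z : ℂ) : movedGrad W a 1 z = grad W (z - a) := by
  simp [movedGrad, simInv]

/-- The interaction energy of the piece translated by `a`. -/
def interaction (S : Split K u C) (a : ℂ) : ℝ :=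
  ∫ z, ⟪grad S.h z, grad S.W (z - a) - grad S.W z⟫

theorem integral_norm_translate (S : Split K u C) (a : ℂ) :
    Integrable (fun z => ‖grad S.W (z - a)‖ ^ 2 - ‖grad S.W z‖ ^ 2) ∧
      ∫ z, ‖grad S.W (z - a)‖ ^ 2 - ‖grad S.W z‖ ^ 2 = 0 := by
  have hi : Integrable (fun z => ‖grad S.W z‖ ^ 2) :=
    (memLp_two_iff_integrable_sq_norm S.memL2.aestronglyMeasurable).1 S.memL2
  refine ⟨(hi.comp_sub_right a).sub hi, ?_⟩
  rw [integral_sub (hi.comp_sub_right a) hi,
    integral_sub_right_eq_self (fun z => ‖grad S.W z‖ ^ 2) a, sub_self]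

variable (hR : ReplaceSpec) (hG : GrowthSpec) (hu : IsGM K u) (hCK : C ⊆ K)
  (hC : IsCompact C) (hKo : IsClosed (K \ C)) (S : Split K u C)

include hR hG hu hCK hC hKo

theorem interaction_nonneg (a : ℂ) :
    Integrable (fun z => ⟪grad S.h z, grad S.W (z - a) - grad S.W z⟫) ∧
      0 ≤ interaction S a := by
  have h0 : LocallyLipschitzOn (((K \ C) ∪ (fun z => a + (1 : ℝ) • z) '' C)ᶜ) (fun _ : ℂ => (0 : ℝ)) :=
    fun z _ => ⟨0, univ, univ_mem, (LipschitzWith.const (0 : ℝ)).lipschitzOnWith⟩
  obtain ⟨hi, h⟩ := variation hR hG hu hCK hC hKo S a one_pos h0 HasCompactSupport.zero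
    (by simp [dirichlet, gradSq])
  have hz : ∀ z, grad (fun _ : ℂ => (0 : ℝ)) z = 0 := fun z => by
    apply Complex.ext <;> simp [grad, pd]
  simp only [hz, add_zero, movedGrad_one, sub_self, zero_mul, zero_add] at hi h
  obtain ⟨hn, hn0⟩ := integral_norm_translate S a
  have hae : (fun z => 2 * ⟪grad u z, grad S.W (z - a) - grad S.W z⟫ +
      ‖grad S.W (z - a) - grad S.W z‖ ^ 2) =ᵐ[volume]
      fun z => 2 * ⟪grad S.h z, grad S.W (z - a) - grad S.W z⟫ +
        (‖grad S.W (z - a)‖ ^ 2 - ‖grad S.W z‖ ^ 2) := by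
    filter_upwards [ae_grad_split hu hC.isClosed hCK hKo S] with z hz
    rw [hz, inner_add_left, norm_sub_sq_real, inner_sub_right (grad S.W z), real_inner_self_eq_norm_sq,
      real_inner_comm (grad S.W z) (grad S.W (z - a))]
    ring
  have hI : Integrable (fun z => 2 * ⟪grad S.h z, grad S.W (z - a) - grad S.W z⟫) :=
    ((hi.congr hae).sub hn).congr (Eventually.of_forall fun z => by simp)
  refine ⟨(hI.const_mul 2⁻¹).congr (Eventually.of_forall fun z => by simp), ?_⟩
  rw [integral_congr_ae hae, integral_add hI hn, hn0, integral_const_mul] at h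
  simp only [interaction]
  linarith

theorem interaction_eq_zero : ∃ ε > 0, ∀ a : ℂ, ‖a‖ ≤ ε → interaction S a = 0 := by
  obtain ⟨ξ, V, hξ, hξc, hξU, hV, hCV, hξ1, -⟩ :=
    exists_cutoff hC hKo.isOpen_compl fun z hz h => h.2 hz
  have hVU : V ⊆ (K \ C)ᶜ := fun z hz =>
    hξU (subset_tsupport ξ (by simp [mem_support, hξ1 hz]))
  obtain ⟨δ, hδ, hδV⟩ := hC.exists_cthickening_subset_open hV hCV
  refine ⟨δ / 2, half_pos hδ, ?_⟩
  set P : ℂ → ℝ := fun z => ξ z * S.h z with hP
  have hPs : ContDiff ℝ ∞ P := contDiff_mul_cutoff hKo.isOpen_compl hξ S.smooth_h hξU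
  have hPc : HasCompactSupport P := hξc.mul_right
  have horth : ∀ a : ℂ, Integrable (fun z => ⟪grad P z, grad S.W (z - a)⟫) ∧
      ∫ z, ⟪grad P z, grad S.W (z - a)⟫ = 0 := by
    intro a
    set ψ : ℂ → ℝ := fun y => P (y + a) with hψ
    obtain ⟨i, j⟩ := S.orth ψ (hPs.comp (contDiff_id.add contDiff_const))
      (hPc.comp_homeomorph (Homeomorph.addRight a))
    have e : ∀ y, gradInner S.W ψ y = ⟪grad P (y + a), grad S.W (y + a - a)⟫ := fun y => by
      rw [gradInner_eq, real_inner_comm, add_sub_cancel_right]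
      congr 1
      apply Complex.ext <;> simp [grad, pd, hψ, fderiv_comp_add_right]
    simp only [e] at i j
    refine ⟨?_, ?_⟩
    · simpa using i.comp_sub_right a
    · rw [← integral_add_right_eq_self _ a]; exact j
  set Y : ℂ → ℂ := fun z => grad S.h z - grad P z with hY
  have hY0 : ∀ z ∈ V, Y z = 0 := fun z hz => by
    have : P =ᶠ[𝓝 z] S.h := by
      filter_upwards [hV.mem_nhds hz] with y hy
      simp [hP, hξ1 hy]
    simp [hY, grad_congr this]
  have hint : ∀ a, interaction S a = ∫ z, ⟪Y z, grad S.W (z - a) - grad S.W z⟫ := by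
    intro a
    obtain ⟨i1, j1⟩ := horth a
    obtain ⟨i2, j2⟩ := horth 0
    simp only [sub_zero] at i2 j2
    have i3 : Integrable (fun z => ⟪grad P z, grad S.W (z - a) - grad S.W z⟫) := by
      simp only [inner_sub_right]; exact i1.sub i2
    have j3 : ∫ z, ⟪grad P z, grad S.W (z - a) - grad S.W z⟫ = 0 := by
      simp only [inner_sub_right]; rw [integral_sub i1 i2, j1, j2, sub_zero]
    have heq : (fun z => ⟪Y z, grad S.W (z - a) - grad S.W z⟫) = fun z =>
        ⟪grad S.h z, grad S.W (z - a) - grad S.W z⟫ - ⟪grad P z, grad S.W (z - a) - grad S.W z⟫ :=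
      funext fun z => inner_sub_left _ _ _
    rw [heq, integral_sub (interaction_nonneg hR hG hu hCK hC hKo S a).1 i3, j3, sub_zero]
    rfl
  -- a uniform decaying bound away from `C`
  obtain ⟨A, R, hA, hR', hdec⟩ := S.decay
  have hfarC : ∀ z ∉ V, ∀ a : ℂ, ‖a‖ ≤ δ / 2 → z - a ∉ Metric.thickening (δ / 2) C := by
    intro z hz a ha h
    refine hz (hδV ?_)
    rw [mem_thickening_iff] at h
    obtain ⟨c, hc, hd⟩ := h
    refine mem_cthickening_of_dist_le z c δ C hc ?_
    have : dist z (z - a) = ‖a‖ := by simp [dist_eq_norm]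
    linarith [dist_triangle z (z - a) c]
  have hCt : C ⊆ Metric.thickening (δ / 2) C := self_subset_thickening (half_pos hδ) C
  have hWcont : ContinuousOn (grad S.W) (Metric.thickening (δ / 2) C)ᶜ :=
    (continuousOn_grad hC.isClosed.isOpen_compl S.smooth_W).mono (compl_subset_compl.2 hCt)
  set ρ : ℝ := 2 * R + δ + 1 with hρ
  obtain ⟨M, hM⟩ := ((isCompact_closedBall (0 : ℂ) (ρ + δ)).diff
    (isOpen_thickening (δ := δ / 2) (E := C))).exists_bound_of_continuousOn
    (hWcont.mono fun z hz => hz.2)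
  set Q : ℝ := (|M| + 4 * A) * (1 + ρ) ^ 2 with hQ
  set B : ℂ → ℝ := fun z => Q * (1 + ‖z‖) ^ (-2 : ℝ) with hB
  have hQ0 : 0 ≤ Q := by positivity
  have hBb : ∀ z ∉ V, ∀ a : ℂ, ‖a‖ ≤ δ / 2 → ‖grad S.W (z - a)‖ ≤ B z := by
    intro z hz a ha
    rw [hB, show (-2 : ℝ) = -((2 : ℕ) : ℝ) by norm_num]
    simp only
    rw [Real.rpow_neg (by positivity), Real.rpow_natCast, ← div_eq_mul_inv,
      le_div_iff₀ (by positivity)]
    have hnorm := norm_sub_norm_le z a
    by_cases hzR : ‖z‖ ≤ ρ
    · have hb := hM (z - a) ⟨by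
        rw [mem_closedBall, dist_zero_right]; linarith [norm_sub_le z a], hfarC z hz a ha⟩
      calc ‖grad S.W (z - a)‖ * (1 + ‖z‖) ^ 2 ≤ |M| * (1 + ρ) ^ 2 :=
            mul_le_mul (hb.trans (le_abs_self M)) (pow_le_pow_left₀ (by positivity) (by linarith) 2)
              (by positivity) (abs_nonneg M)
        _ ≤ Q := mul_le_mul_of_nonneg_right (by linarith) (by positivity)
    · rw [not_le] at hzR
      have hzpos : 0 < ‖z‖ := by linarith [hρ, hR', hδ]
      have hw : ‖z‖ / 2 ≤ ‖z - a‖ := by linarith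
      have hb : ‖grad S.W (z - a)‖ ≤ A / (‖z‖ / 2) ^ 2 :=
        (hdec (z - a) (by linarith)).2.2.trans
          (div_le_div_of_nonneg_left hA (by positivity) (pow_le_pow_left₀ (by positivity) hw 2))
      have h1 : 1 + ‖z‖ ≤ (1 + ρ) * ‖z‖ := by nlinarith [hρ, hR', hδ]
      calc ‖grad S.W (z - a)‖ * (1 + ‖z‖) ^ 2 ≤ A / (‖z‖ / 2) ^ 2 * ((1 + ρ) * ‖z‖) ^ 2 :=
            mul_le_mul hb (pow_le_pow_left₀ (by positivity) h1 2) (by positivity) (by positivity)
        _ = 4 * A * (1 + ρ) ^ 2 := by field_simp; ring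
        _ ≤ Q := mul_le_mul_of_nonneg_right (by linarith [abs_nonneg M]) (by positivity)
  have hBc : Continuous B := continuous_const.mul ((continuous_const.add continuous_norm).rpow_const
    fun z => Or.inl (ne_of_gt (show (0 : ℝ) < 1 + ‖z‖ by positivity)))
  have hBdec : Decays B := by
    refine ⟨(memLp_two_iff_integrable_sq hBc.aestronglyMeasurable).2 ?_, Q, 1, hQ0, one_pos,
      fun z hz => ?_⟩
    · refine ((integrable_one_add_norm (r := 4)
        (by rw [Complex.finrank_real_complex]; norm_num)).const_mul (Q ^ 2)).congr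
        (Eventually.of_forall fun z => ?_)
      simp only [hB, mul_pow]
      rw [← Real.rpow_natCast ((1 + ‖z‖) ^ (-2 : ℝ)), ← Real.rpow_mul (by positivity)]
      norm_num
    · simp only [hB]
      rw [abs_of_nonneg (by positivity), show (-2 : ℝ) = -((2 : ℕ) : ℝ) by norm_num,
        Real.rpow_neg (by positivity), Real.rpow_natCast, ← div_eq_mul_inv]
      exact div_le_div_of_nonneg_left hQ0 (by positivity)
        (pow_le_pow_left₀ (by positivity) (by linarith) 2)
  have hYB : Integrable (fun z => ‖Y z‖ * (2 * B z)) := by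
    have h1 := integrable_grad_mul hG hu hBdec
    have h2 : Integrable (fun z => ‖grad S.W z‖ * B z) := S.memL2.norm.integrable_mul hBdec.1
    have h3 : Integrable (fun z => ‖grad P z‖ * B z) :=
      ((continuous_grad hPs).norm.mul hBc).integrable_of_hasCompactSupport
        (HasCompactSupport.mul_right (HasCompactSupport.intro hPc fun z hz => by
          simp [grad_zero_of_notMem hz]))
    refine (((h1.add h2).add h3).const_mul 2).mono'
      ((((measurable_grad S.h).sub (measurable_grad P)).norm.aestronglyMeasurable.mul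
        (hBc.aestronglyMeasurable.const_mul 2))) ?_
    filter_upwards [ae_grad_split hu hC.isClosed hCK hKo S] with z hz
    have hB0 : 0 ≤ B z := by simp only [hB]; positivity
    rw [norm_mul, norm_norm, Real.norm_eq_abs, abs_of_nonneg (mul_nonneg zero_le_two hB0)]
    simp only [Pi.add_apply, abs_of_nonneg hB0]
    have : ‖grad S.h z - grad P z‖ ≤ ‖grad u z‖ + ‖grad S.W z‖ + ‖grad P z‖ := by
      have h' : grad S.h z = grad u z - grad S.W z := by rw [hz]; abel
      rw [h']
      exact (norm_sub_le _ _).trans (add_le_add (norm_sub_le _ _) le_rfl)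
    calc ‖grad S.h z - grad P z‖ * (2 * B z) ≤
          (‖grad u z‖ + ‖grad S.W z‖ + ‖grad P z‖) * (2 * B z) :=
          mul_le_mul_of_nonneg_right this (by linarith)
      _ = _ := by ring
  have hker : ∀ (a : ℂ), ‖a‖ ≤ δ / 2 → ∀ z,
      ‖⟪Y z, grad S.W (z - a) - grad S.W z⟫‖ ≤ ‖Y z‖ * (2 * B z) := by
    intro a ha z
    by_cases hz : z ∈ V
    · simp [hY0 z hz]
    · refine (norm_inner_le_norm _ _).trans (mul_le_mul_of_nonneg_left
        ((norm_sub_le _ _).trans ?_) (norm_nonneg _))
      have h0 := hBb z hz 0 (by simp; linarith)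
      rw [sub_zero] at h0
      linarith [hBb z hz a ha]
  have hYm : Measurable Y := (measurable_grad S.h).sub (measurable_grad P)
  have hmeas : ∀ a, AEStronglyMeasurable (fun z => ⟪Y z, grad S.W (z - a) - grad S.W z⟫) volume :=
    fun a => (hYm.inner (((measurable_grad S.W).comp (measurable_id.sub_const a)).sub
      (measurable_grad S.W))).aestronglyMeasurable
  have hcont : ContinuousOn (interaction S) (closedBall 0 (δ / 2)) := by
    refine ContinuousOn.congr ?_ fun a _ => hint a
    refine continuousOn_of_dominated (bound := fun z => ‖Y z‖ * (2 * B z)) (fun a _ => hmeas a)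
      (fun a ha => Eventually.of_forall (hker a (by simpa using ha))) hYB
      (Eventually.of_forall fun z => ?_)
    by_cases hz : z ∈ V
    · simp only [hY0 z hz, inner_zero_left]; exact continuousOn_const
    · exact continuousOn_const.inner ((hWcont.comp (continuous_const.sub continuous_id).continuousOn
        fun a ha => hfarC z hz a (by simpa using ha)).sub continuousOn_const)
  -- mean zero on circles
  intro a ha
  rcases eq_or_ne a 0 with rfl | hane
  · simp [interaction]
  set r : ℝ := ‖a‖ with hr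
  have hr0 : 0 < r := norm_pos_iff.2 hane
  have hav : ∀ θ : ℝ, ‖-circleMap 0 r θ‖ ≤ δ / 2 := fun θ => by
    simp [abs_of_pos hr0, ha]
  have hzero : ∫ θ in 0..2 * π, interaction S (-circleMap 0 r θ) = 0 := by
    simp only [hint]
    have hprod : Integrable (uncurry fun (θ : ℝ) (z : ℂ) =>
        ⟪Y z, grad S.W (z - -circleMap 0 r θ) - grad S.W z⟫)
        ((volume.restrict (uIoc 0 (2 * π))).prod volume) := by
      have : IsFiniteMeasure (volume.restrict (uIoc (0 : ℝ) (2 * π))) := ⟨by
        rw [Measure.restrict_apply_univ, Real.volume_uIoc]; exact ENNReal.ofReal_lt_top⟩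
      refine ((integrable_const (1 : ℝ)).mul_prod hYB).mono' ?_ ?_
      · exact ((hYm.comp measurable_snd).inner (((measurable_grad S.W).comp (measurable_snd.sub
          ((continuous_circleMap 0 r).measurable.comp measurable_fst).neg)).sub
          ((measurable_grad S.W).comp measurable_snd))).aestronglyMeasurable
      · refine Eventually.of_forall fun p => ?_
        rw [one_mul]
        exact hker _ (hav p.1) p.2
    rw [intervalIntegral_integral_swap (f := fun (θ : ℝ) (z : ℂ) =>
        ⟪Y z, grad S.W (z - -circleMap 0 r θ) - grad S.W z⟫) hprod]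
    refine integral_eq_zero_of_ae (Eventually.of_forall fun z => ?_)
    by_cases hz : z ∈ V
    · simp [hY0 z hz]
    · have hsub : closedBall z r ⊆ Cᶜ := fun y hy hyC => by
        refine hfarC z hz (z - y) ?_ (by simpa using hCt hyC)
        rw [mem_closedBall, dist_comm, dist_eq_norm] at hy
        linarith
      have hmean := congrArg (innerSL ℝ (Y z)) (circle_mean S hC.isClosed hr0.le hsub)
      have hci : IntervalIntegrable (fun θ => grad S.W (circleMap z r θ) - grad S.W z) volume 0 (2 * π) := by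
        refine ((((continuousOn_grad hC.isClosed.isOpen_compl S.smooth_W).comp_continuous
          (continuous_circleMap _ _) fun θ => hsub ?_).sub continuous_const)).intervalIntegrable _ _
        exact sphere_subset_closedBall (circleMap_mem_sphere z hr0.le θ)
      rw [← ContinuousLinearMap.intervalIntegral_comp_comm _ hci, map_zero] at hmean
      refine Eq.trans ?_ hmean
      refine intervalIntegral.integral_congr fun θ _ => ?_
      simp [circleMap]
  have hcθ : ContinuousOn (fun θ => interaction S (-circleMap 0 r θ)) (Icc 0 (2 * π)) :=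
    hcont.comp (continuous_circleMap 0 r).neg.continuousOn fun θ _ => by simpa using hav θ
  obtain ⟨θ₀, hθ₀, hθa⟩ : ∃ θ ∈ Icc (0 : ℝ) (2 * π), -circleMap 0 r θ = a := by
    have hm : -a ∈ sphere (0 : ℂ) |r| := by simp [hr]
    rw [← image_circleMap_Ioc] at hm
    obtain ⟨θ, hθ, he⟩ := hm
    exact ⟨θ, Ioc_subset_Icc_self hθ, by rw [he, neg_neg]⟩
  by_contra hne
  have hpos : 0 < interaction S a :=
    lt_of_le_of_ne (interaction_nonneg hR hG hu hCK hC hKo S a).2 (Ne.symm hne)
  exact (intervalIntegral.integral_pos (by positivity) hcθ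
    (fun θ _ => (interaction_nonneg hR hG hu hCK hC hKo S _).2)
    ⟨θ₀, hθ₀, by rw [hθa]; exact hpos⟩).ne' hzero

theorem fluxFree : ∀ p ∈ K \ C, ∃ ρ > 0, ball p ρ ⊆ Cᶜ ∧
    ∀ e : ℂ, ∀ φ : ℂ → ℝ, LocallyLipschitzOn Kᶜ φ → HasCompactSupport φ → tsupport φ ⊆ ball p ρ →
      dirichlet K φ univ < ⊤ →
        ∫ z in Kᶜ, fderiv ℝ φ z ((starRingEnd ℂ) (deriv (cgrad S.W) z * e)) = 0 := by
  obtain ⟨ε, hε, hzero⟩ := interaction_eq_zero hR hG hu hCK hC hKo S
  intro p hp
  obtain ⟨ρ, hρ, hρC⟩ := Metric.isOpen_iff.1 hC.isClosed.isOpen_compl p hp.2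
  refine ⟨ρ / 2, half_pos hρ, (ball_subset_ball (by linarith)).trans hρC, fun e φ hφ hφc hφs hφd => ?_⟩
  have hKnull := hu.volume_eq_zero
  have hφ0 : ∀ z ∉ ball p (ρ / 2), φ =ᶠ[𝓝 z] fun _ => 0 := fun z hz =>
    notMem_tsupport_iff_eventuallyEq.1 fun h => hz (hφs h)
  have hφi : Integrable (fun z => ‖grad φ z‖ ^ 2) := by
    refine ⟨((measurable_grad φ).norm.pow_const 2).aestronglyMeasurable, ?_⟩
    rw [hasFiniteIntegral_iff_ofReal (Eventually.of_forall fun z => by positivity)]
    unfold dirichlet at hφd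
    rw [setLIntegral_congr (sdiff_null_ae_eq_self hKnull), setLIntegral_univ] at hφd
    simpa only [← gradSq_eq] using hφd
  have key : ∀ a : ℂ, ‖a‖ ≤ ε → ∫ z, ⟪grad u z + (grad S.W (z - a) - grad S.W z), grad φ z⟫ = 0 ∧
      Integrable (fun z => ⟪grad u z + (grad S.W (z - a) - grad S.W z), grad φ z⟫) := by
    intro a ha
    set L : Set ℂ := (K \ C) ∪ (fun z => a + (1 : ℝ) • z) '' C with hL
    have hCT : IsCompact ((fun z => a + (1 : ℝ) • z) '' C) := hC.image (by fun_prop)
    have hLnull : volume L = 0 := by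
      refine measure_union_null (measure_mono_null sdiff_subset hKnull) ?_
      have : (fun z : ℂ => a + (1 : ℝ) • z) '' C = (fun z => a + z) '' C := by simp
      rw [this, image_add_left, measure_preimage_add]
      exact measure_mono_null hCK hKnull
    have hlip : ∀ s : ℝ, LocallyLipschitzOn Lᶜ (fun z => s * φ z) := by
      intro s z hz
      by_cases hzK : z ∈ K
      · have hzC : z ∈ C := by
          by_contra h
          exact hz (Or.inl ⟨hzK, h⟩)
        have hzb : z ∉ ball p (ρ / 2) := fun h => hρC (ball_subset_ball (by linarith) h) hzC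
        refine ⟨0, {y | φ y = 0}, nhdsWithin_le_nhds (hφ0 z hzb), fun x hx y hy => ?_⟩
        simp [mem_setOf.1 hx, mem_setOf.1 hy]
      · obtain ⟨k, t, ht, hl⟩ := hφ hzK
        rw [nhdsWithin_eq_nhds.2 (hu.isOpen_compl.mem_nhds hzK)] at ht
        exact ⟨_, t, nhdsWithin_le_nhds ht, (lipschitzWith_smul s).comp_lipschitzOnWith hl⟩
    have hgs : ∀ s : ℝ, ∀ z, grad (fun y => s * φ y) z = s • grad φ z := fun s z => by
      have : fderiv ℝ (fun y => s * φ y) z = s • fderiv ℝ φ z :=
        congrFun (fderiv_const_smul_field (f := φ) s) z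
      apply Complex.ext <;> simp [grad, pd, this]
    have hvar : ∀ s : ℝ, Integrable (fun z => 2 * ⟪grad u z, grad S.W (z - a) - grad S.W z + s • grad φ z⟫ +
        ‖grad S.W (z - a) - grad S.W z + s • grad φ z‖ ^ 2) ∧
        0 ≤ ∫ z, 2 * ⟪grad u z, grad S.W (z - a) - grad S.W z + s • grad φ z⟫ +
          ‖grad S.W (z - a) - grad S.W z + s • grad φ z‖ ^ 2 := by
      intro s
      have hd : dirichlet L (fun z => s * φ z) univ < ⊤ := by
        have hi : Integrable (fun z => ‖grad (fun y => s * φ y) z‖ ^ 2) := by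
          simp only [hgs, norm_smul, mul_pow]
          exact hφi.const_mul _
        unfold dirichlet
        rw [setLIntegral_congr (sdiff_null_ae_eq_self hLnull), setLIntegral_univ]
        have := hi.hasFiniteIntegral
        rw [hasFiniteIntegral_iff_ofReal (Eventually.of_forall fun z => by positivity)] at this
        simpa only [gradSq_eq] using this
      obtain ⟨i, j⟩ := variation hR hG hu hCK hC hKo S a one_pos (hlip s) hφc.mul_left hd
      simp only [hgs, movedGrad_one, sub_self, zero_mul, zero_add] at i j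
      exact ⟨i, j⟩
    set Xa : ℂ → ℂ := fun z => grad S.W (z - a) - grad S.W z with hXa
    obtain ⟨i0, -⟩ := hvar 0
    obtain ⟨i1, -⟩ := hvar 1
    have h0 : ∫ z, 2 * ⟪grad u z, Xa z⟫ + ‖Xa z‖ ^ 2 = 0 := by
      obtain ⟨hn, hn0⟩ := integral_norm_translate S a
      have hI := (interaction_nonneg hR hG hu hCK hC hKo S a).1
      have hae : (fun z => 2 * ⟪grad u z, Xa z⟫ + ‖Xa z‖ ^ 2) =ᵐ[volume]
          fun z => 2 * ⟪grad S.h z, Xa z⟫ + (‖grad S.W (z - a)‖ ^ 2 - ‖grad S.W z‖ ^ 2) := by
        filter_upwards [ae_grad_split hu hC.isClosed hCK hKo S] with z hz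
        simp only [hXa]
        rw [hz, inner_add_left, norm_sub_sq_real, inner_sub_right (grad S.W z),
          real_inner_self_eq_norm_sq, real_inner_comm (grad S.W z) (grad S.W (z - a))]
        ring
      rw [integral_congr_ae hae, integral_add (hI.const_mul 2) hn, hn0, integral_const_mul]
      have := hzero a ha
      simp only [interaction] at this
      simp only [hXa, this]; ring
    have hexp : ∀ s : ℝ, ∀ z, 2 * ⟪grad u z, Xa z + s • grad φ z⟫ + ‖Xa z + s • grad φ z‖ ^ 2 =
        (2 * ⟪grad u z, Xa z⟫ + ‖Xa z‖ ^ 2) +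
          (2 * s * ⟪grad u z + Xa z, grad φ z⟫ + s ^ 2 * ‖grad φ z‖ ^ 2) := fun s z => by
      rw [norm_add_sq_real, norm_smul, mul_pow, Real.norm_eq_abs, sq_abs, inner_add_right,
        inner_add_left, real_inner_smul_right, real_inner_smul_right]
      ring
    have i0' : Integrable (fun z => 2 * ⟪grad u z, Xa z⟫ + ‖Xa z‖ ^ 2) := by
      exact i0.congr (Eventually.of_forall fun z => by simp [hXa])
    have hlin : Integrable (fun z => ⟪grad u z + Xa z, grad φ z⟫) := by
      refine (((i1.sub i0').sub hφi).const_mul 2⁻¹).congr (Eventually.of_forall fun z => ?_)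
      simp only [Pi.sub_apply]
      rw [hexp 1 z]; ring
    refine ⟨?_, hlin⟩
    set Al := ∫ z, ⟪grad u z + Xa z, grad φ z⟫ with hAl
    set Bq := ∫ z, ‖grad φ z‖ ^ 2 with hBq
    have hq : ∀ s : ℝ, 0 ≤ 2 * s * Al + s ^ 2 * Bq := by
      intro s
      have := (hvar s).2
      rw [integral_congr_ae (Eventually.of_forall fun z => hexp s z)] at this
      have i2' : Integrable (fun z => 2 * s * ⟪grad u z + Xa z, grad φ z⟫ + s ^ 2 * ‖grad φ z‖ ^ 2) :=
        (hlin.const_mul _).add (hφi.const_mul _)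
      rw [integral_add i0' i2', h0, zero_add,
        integral_add (hlin.const_mul _) (hφi.const_mul _), integral_const_mul, integral_const_mul] at this
      exact this
    have hB0 : 0 ≤ Bq := integral_nonneg fun z => by positivity
    rcases hB0.eq_or_lt with h | h
    · have := hq (-Al); rw [← h] at this; nlinarith [sq_nonneg Al]
    · have := hq (-(Al / Bq))
      have hAB : 2 * (-(Al / Bq)) * Al + (-(Al / Bq)) ^ 2 * Bq = -(Al ^ 2 / Bq) := by
        field_simp; ring
      rw [hAB] at this
      have h2 : Al ^ 2 / Bq ≤ 0 := by linarith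
      have h3 : Al ^ 2 ≤ 0 := by
        have := (div_le_iff₀ h).1 h2
        linarith
      nlinarith [sq_nonneg Al]
  -- differentiate the translation identity
  obtain ⟨k0, k1⟩ := key 0 (by simp [hε.le])
  simp only [sub_zero, sub_self, add_zero] at k0 k1
  set N : Set ℂ := closedBall p (3 * ρ / 4) with hN
  have hNC : N ⊆ Cᶜ := (closedBall_subset_ball (by linarith)).trans hρC
  have hcd : ContinuousOn (fun z => deriv (cgrad S.W) z) Cᶜ :=
    ((DifferentiableOn.analyticOnNhd (fun y hy => (differentiableAt_cgrad S hC.isClosed hy).differentiableWithinAt)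
      hC.isClosed.isOpen_compl).deriv).continuousOn
  obtain ⟨M, hM⟩ := (isCompact_closedBall p (3 * ρ / 4)).exists_bound_of_continuousOn (hcd.mono hNC)
  set τ : ℝ := min (ε / (‖e‖ + 1)) (ρ / 4 / (‖e‖ + 1)) with hτ
  have hτ0 : 0 < τ := lt_min (by positivity) (by positivity)
  have hse : ∀ s ∈ ball (0 : ℝ) τ, ‖s • e‖ ≤ ε ∧ ‖s • e‖ < ρ / 4 := by
    intro s hs
    rw [mem_ball, dist_zero_right] at hs
    have h1 : ‖s‖ * (‖e‖ + 1) < ε := by
      have := hs.trans_le (min_le_left _ _); rwa [lt_div_iff₀ (by positivity)] at this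
    have h2 : ‖s‖ * (‖e‖ + 1) < ρ / 4 := by
      have := hs.trans_le (min_le_right _ _); rwa [lt_div_iff₀ (by positivity)] at this
    rw [norm_smul]
    constructor <;> nlinarith [norm_nonneg s, norm_nonneg e]
  set q : ℝ → ℂ → ℝ := fun s z => ⟪grad S.W (z - s • e) - grad S.W z, grad φ z⟫ with hq
  have hqi : ∀ s ∈ ball (0 : ℝ) τ, Integrable (q s) ∧ ∫ z, q s z = 0 := by
    intro s hs
    obtain ⟨a0, a1⟩ := key (s • e) (hse s hs).1
    have hsub : Integrable (q s) := (a1.sub k1).congr (Eventually.of_forall fun z => by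
      simp [hq, inner_add_left])
    refine ⟨hsub, ?_⟩
    have : ∫ z, q s z = (∫ z, ⟪grad u z + (grad S.W (z - s • e) - grad S.W z), grad φ z⟫) -
        ∫ z, ⟪grad u z, grad φ z⟫ := by
      rw [← integral_sub a1 k1]; simp [hq, inner_add_left]
    rw [this, a0, k0, sub_zero]
  set q' : ℝ → ℂ → ℝ := fun s z =>
    ⟪(starRingEnd ℂ) (deriv (cgrad S.W) (z - s • e) * -e), grad φ z⟫ with hq'
  have hgz : ∀ z ∉ ball p (ρ / 2), grad φ z = 0 := fun z hz => by
    rw [grad_congr (hφ0 z hz)]; apply Complex.ext <;> simp [grad, pd]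
  have hzs : ∀ z ∈ ball p (ρ / 2), ∀ s ∈ ball (0 : ℝ) τ, z - s • e ∈ N := by
    intro z hz s hs
    rw [mem_ball] at hz
    rw [hN, mem_closedBall]
    have : dist (z - s • e) z = ‖s • e‖ := by simp [dist_eq_norm]
    linarith [dist_triangle (z - s • e) z p, (hse s hs).2]
  have hbint : Integrable (fun z => M * ‖e‖ * ‖grad φ z‖) := by
    refine Integrable.const_mul ?_ _
    have h2 : IntegrableOn (fun z => ‖grad φ z‖ ^ 2 + 1) (closedBall p (ρ / 2)) :=
      hφi.integrableOn.add (integrableOn_const measure_closedBall_lt_top.ne)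
    refine (integrableOn_iff_integrable_of_support_subset (s := closedBall p (ρ / 2)) ?_).1
      (h2.mono' (measurable_grad φ).norm.aestronglyMeasurable.restrict (Eventually.of_forall fun z => ?_))
    · intro z hz
      by_contra h
      exact hz (by simp [hgz z fun h' => h (ball_subset_closedBall h')])
    · rw [norm_norm]; nlinarith [sq_nonneg (‖grad φ z‖ - 1), norm_nonneg (grad φ z)]
  have hderiv := hasDerivAt_integral_of_dominated_loc_of_deriv_le (μ := (volume : Measure ℂ))
    (F := q) (F' := q') (x₀ := 0) (bound := fun z => M * ‖e‖ * ‖grad φ z‖)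
    (ball_mem_nhds 0 hτ0) ?_ (hqi 0 (mem_ball_self hτ0)).1 ?_ ?_ hbint ?_
  · have hconst : HasDerivAt (fun s => ∫ z, q s z) 0 (0 : ℝ) :=
      (hasDerivAt_const (0 : ℝ) (0 : ℝ)).congr_of_eventuallyEq
        (eventually_of_mem (ball_mem_nhds 0 hτ0) fun s hs => (hqi s hs).2)
    have h0 := hderiv.2.unique hconst
    rw [Measure.restrict_congr_set (ae_eq_univ.2 (by rwa [compl_compl])), Measure.restrict_univ]
    rw [← neg_eq_zero, ← integral_neg, ← h0]
    refine integral_congr_ae (Eventually.of_forall fun z => ?_)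
    show -(fderiv ℝ φ z ((starRingEnd ℂ) (deriv (cgrad S.W) z * e))) = q' 0 z
    rw [inner_grad, real_inner_comm, ← inner_neg_left]
    simp [hq']
  · exact eventually_of_mem (ball_mem_nhds 0 hτ0) fun s hs => (hqi s hs).1.aestronglyMeasurable
  · have hm : Measurable fun z => deriv (cgrad S.W) z := measurable_deriv _
    exact (((Complex.continuous_conj.measurable.comp ((hm.comp (measurable_id.sub_const _)).mul_const _))).inner
      (measurable_grad φ)).aestronglyMeasurable
  · refine Eventually.of_forall fun z s hs => ?_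
    by_cases hz : z ∈ ball p (ρ / 2)
    · refine (norm_inner_le_norm _ _).trans (mul_le_mul_of_nonneg_right ?_ (norm_nonneg _))
      rw [Complex.norm_conj, norm_mul, norm_neg]
      exact mul_le_mul_of_nonneg_right (hM _ (hzs z hz s hs)) (norm_nonneg _)
    · simp [hq', hgz z hz]
  · refine Eventually.of_forall fun z s hs => ?_
    by_cases hz : z ∈ ball p (ρ / 2)
    · obtain ⟨Lf, hLf, hLv⟩ := hasFDerivAt_grad S hC.isClosed (z := z - s • e) (hNC (hzs z hz s hs))
      have hline : HasDerivAt (fun s : ℝ => z - s • e) (-e) s := by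
        simpa using ((hasDerivAt_id s).smul_const e).const_sub z
      have h1 := (hLf.comp_hasDerivAt s hline).sub_const (grad S.W z)
      have h2 := h1.inner ℝ (hasDerivAt_const s (grad φ z))
      simp only [hq, hq', inner_zero_right, zero_add, hLv] at h2 ⊢
      exact h2
    · simp only [hq, hq', hgz z hz, inner_zero_right]
      exact hasDerivAt_const s 0

end Vale.Agent.P128.KeyAux
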